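import Mathlib
import Vale.Agent.P150.Defs

/-!
The heat-bath dynamics driven by Poisson clocks, its mixing time, its generator on `L²(μ)` and the
spectral gap.
-/

namespace Vale.Agent.P150W

open MeasureTheory ProbabilityTheory Set Vale.Agent.P150

variable {n : ℕ} (J : Fin n → Fin n → ℝ) (b : Fin n → ℝ)

/-! ### The dynamics -/

/-- The randomness of the dynamics: `(ω i k).1` is the waiting time of the clock at the site `i`
before its ring number `k`, and `(ω i k).2` is the variable used to resample the spin at this
ring. -/
abbrev Clocks (n : ℕ) : Type := Fin n → ℕ → ℝ × ℝ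

/-- All these variables are independent, the waiting times are exponential of rate one (so that the
clocks are independent rate-one Poisson clocks), the others are uniform on `[0, 1]`. -/
noncomputable def clockLaw (n : ℕ) : Measure (Clocks n) :=
  Measure.pi fun _ => Measure.infinitePi fun _ => (expMeasure 1).prod (volume.restrict (Icc 0 1))

/-- The time of the ring number `k` of the clock at `i`. -/
def ring (ω : Clocks n) (i : Fin n) (k : ℕ) : ℝ := ∑ j ∈ Finset.range (k + 1), (ω i j).1

/-- The spin at `i` is resampled: it becomes `+1` if `u < exp h_i / (2 cosh h_i)`, else `-1`. -/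
noncomputable def heat (x : Cfg n) (i : Fin n) (u : ℝ) : Cfg n :=
  Function.update x i
    (decide (u < Real.exp (locField J b x i) / (2 * Real.cosh (locField J b x i))))

/-- `X` is the path of the dynamics from `x`: it starts at `x`, it does not move while no clock
rings, and when the clock at `i` rings the spin at `i` is resampled. -/
def IsPath (x : Cfg n) (ω : Clocks n) (X : ℝ → Cfg n) : Prop :=
  X 0 = x ∧ (∀ s t, 0 ≤ s → s ≤ t → (∀ i k, ring ω i k ∉ Ioc s t) → X t = X s) ∧
    ∀ i k s, 0 ≤ s → s < ring ω i k → (∀ j l, ring ω j l ∉ Ioo s (ring ω i k)) →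
      X (ring ω i k) = heat J b (X s) i (ω i k).2

/-- The event that the path from `x` is in `A` at the time `t`. -/
def event (t : ℝ) (x : Cfg n) (A : Set (Cfg n)) : Set (Clocks n) :=
  {ω | ∃ X, IsPath J b x ω X ∧ X t ∈ A}

/-- The transition kernel `P_t(x, A)`. -/
noncomputable def trans (t : ℝ) (x : Cfg n) (A : Set (Cfg n)) : ℝ :=
  (clockLaw n).real (event J b t x A)

/-- The Gibbs measure `μ(x) = Z⁻¹ exp (energy x)`. -/
noncomputable def mu : Measure (Cfg n) := Measure.count.tilted (energy J b)

/-- The total variation distance `sup_A |P_t(x, A) - μ(A)|`. -/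
noncomputable def tv (t : ℝ) (x : Cfg n) : ℝ :=
  ⨆ A : Set (Cfg n), |trans J b t x A - (mu J b).real A|

/-- The mixing time. -/
noncomputable def mix : ℝ := sInf {t : ℝ | 0 ≤ t ∧ ∀ x, tv J b t x ≤ 1 / 4}

/-! ### Operators on a real Hilbert space -/

section Hilbert

variable {E X : Type} [NormedAddCommGroup E] [InnerProductSpace ℝ E]

/-- The bounded operators on `E`. -/
abbrev Op (E : Type) [NormedAddCommGroup E] [InnerProductSpace ℝ E] : Type := E →L[ℝ] E

/-- A map into a subspace, seen as an operator. -/
noncomputable def incl {K : Submodule ℝ E} (T : E →L[ℝ] K) : Op E := K.subtypeL.comp T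

/-- The operator `∑ i (Q_i - I)`. -/
noncomputable def sumGen (Q : Fin n → Op E) : Op E := ∑ i, (Q i - 1)

/-- The nonzero points of the spectrum of `-L`. -/
def spec (L : Op E) : Set ℝ := spectrum ℝ (-L) \ {0}

/-- On a space of functions (`val F x` is the value of `F` at `x`), `T` acts by the formula `G`. -/
def Acts (val : E → X → ℝ) (T : Op E) (G : (X → ℝ) → X → ℝ) : Prop :=
  ∀ F x, val (T F) x = G (val F) x

/-- `L` is self-adjoint and its kernel is the space of the constants. -/
def SymKer [CompleteSpace E] (val : E → X → ℝ) (L : Op E) : Prop :=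
  IsSelfAdjoint L ∧ ∀ F, L F = 0 ↔ ∃ c, ∀ x, val F x = c

end Hilbert

/-! ### The generator on `L²(μ)` -/

/-- The space `L²(μ)`. -/
abbrev L2 : Type := Lp ℝ 2 (mu J b)

/-- The value of `F` at `x` (`μ` has full support). -/
noncomputable def val (F : L2 J b) (x : Cfg n) : ℝ := F x

/-- The spins other than the spin at `i`. -/
def others (i : Fin n) (x : Cfg n) : {j : Fin n // j ≠ i} → Bool := fun j => x j

theorem measurable_others (i : Fin n) : Measurable (others i) := measurable_of_finite _

/-- `Q_i`, the conditional expectation given the spins other than the spin at `i`, on `L²(μ)`. -/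
noncomputable def condQ (i : Fin n) : Op (L2 J b) :=
  incl (condExpL2 ℝ ℝ (measurable_others i).comap_le)

/-- The generator `L = ∑ i (Q_i - I)` on `L²(μ)`. -/
noncomputable def genL : Op (L2 J b) := sumGen (condQ J b)

/-- The spectral gap: the infimum of the nonzero points of the spectrum of `-L`. -/
noncomputable def gapL : ℝ := sInf (spec (genL J b))

/-! ### These objects are well defined -/

/-- From every start the path exists and is unique on `[0, ∞)` almost surely, the events are
measurable for the completed measure, and `P_t = exp (t L)` (`kernel`, the exponential of the matrix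
of `gen f = ∑ i (Q_i f - f)` with the explicit heat-bath probabilities). -/
def Dynamics : Prop :=
  IsProbabilityMeasure (clockLaw n) ∧ ∀ x,
    (∀ᵐ ω ∂clockLaw n, ∃ X, IsPath J b x ω X ∧ ∀ Y, IsPath J b x ω Y → ∀ t, 0 ≤ t → Y t = X t) ∧
    ∀ t, 0 ≤ t → (∀ A, NullMeasurableSet (event J b t x A) (clockLaw n)) ∧
      ∀ y, trans J b t x {y} = kernel J b t x y

/-- `μ` is a probability measure with full support, `Q_i` is the heat-bath average, `L` acts as
`gen`, is self-adjoint on `L²(μ)`, its kernel is the space of the constants, and the gap is positive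
and is the least nonzero point of the spectrum of `-L`. -/
def Spectral : Prop :=
  IsProbabilityMeasure (mu J b) ∧ (∀ x, 0 < mu J b {x}) ∧
    (∀ i, Acts (val J b) (condQ J b i) (resample J b i)) ∧ Acts (val J b) (genL J b) (gen J b) ∧
    SymKer (val J b) (genL J b) ∧ 0 < gapL J b ∧ IsLeast (spec (genL J b)) (gapL J b)

end Vale.Agent.P150W
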