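import Vale.Agent.P150W51.Law
import Vale.Agent.P150.Bdl.B19

/-!
The generator on `L²(μ)`, its spectrum; the total variation distance and the mixing time.
-/

namespace Vale.Agent.P150W

open MeasureTheory ProbabilityTheory Set Vale.Agent.P150

variable {n : ℕ} {J : Fin n → Fin n → ℝ} {b : Fin n → ℝ}

theorem prob_mu : IsProbabilityMeasure (mu J b) :=
  isProbabilityMeasure_tilted Integrable.of_finite

theorem integral_mu (f : Cfg n → ℝ) : ∫ x, f x ∂mu J b = ex J b f := by
  rw [mu, integral_tilted, integral_count, integral_count]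
  rfl

theorem ae_mu {p : Cfg n → Prop} (h : ∀ᵐ x ∂mu J b, p x) (x : Cfg n) : p x :=
  Measure.ae_count_iff.1 ((absolutelyContinuous_tilted Integrable.of_finite).ae_le h) x

theorem mu_pos (x : Cfg n) : 0 < mu J b {x} :=
  pos_iff_ne_zero.2 fun h =>
    ae_mu (p := fun y => y ∉ ({x} : Set (Cfg n))) (measure_eq_zero_iff_ae_notMem.1 h) x rfl

theorem mu_real (A : Set (Cfg n)) : (mu J b).real A = ∑ y, A.indicator (gibbs J b) y := by
  rw [← integral_indicator_one MeasurableSet.of_discrete, integral_mu]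
  refine Finset.sum_congr rfl fun y _ => ?_
  by_cases hy : y ∈ A <;> simp [hy]

variable (J b) in
/-- The class of a function. -/
noncomputable def toL (f : Cfg n → ℝ) : Lp ℝ 2 (mu J b) :=
  haveI := prob_mu (J := J) (b := b)
  (MemLp.of_discrete (f := f)).toLp f

theorem toL_apply (f : Cfg n → ℝ) (x : Cfg n) : toL J b f x = f x :=
  ae_mu (MemLp.coeFn_toLp _) x

theorem L_ext {F G : Lp ℝ 2 (mu J b)} (h : ∀ x, F x = G x) : F = G := Lp.ext (ae_of_all _ h)

/-- The function of a class. -/
noncomputable def ev : Lp ℝ 2 (mu J b) →ₗ[ℝ] (Cfg n → ℝ) where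
  toFun F := F
  map_add' F G := funext (ae_mu (Lp.coeFn_add F G))
  map_smul' c F := funext (ae_mu (Lp.coeFn_smul c F))

theorem fin_L : FiniteDimensional ℝ (Lp ℝ 2 (mu J b)) :=
  FiniteDimensional.of_injective ev fun _ _ h => L_ext (congrFun h)

theorem inner_eq (F G : Lp ℝ 2 (mu J b)) : inner ℝ F G = ex J b fun x => F x * G x := by
  rw [L2.inner_def, integral_mu]
  exact congrArg _ (funext fun x => by simp [mul_comm])

theorem others_update (i : Fin n) (x : Cfg n) (s : Bool) :
    others i (Function.update x i s) = others i x :=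
  funext fun j => Function.update_of_ne j.2 _ _

theorem condQ_eq (hJ : ∀ i j, J i j = J j i) (i : Fin n) (F : Lp ℝ 2 (mu J b)) :
    condQ J b i F = toL J b (resample J b i F) := by
  have : Fact (MeasurableSpace.comap (others i) inferInstance ≤
    (inferInstance : MeasurableSpace (Cfg n))) := ⟨(measurable_others i).comap_le⟩
  refine Submodule.eq_starProjection_of_mem_of_inner_eq_zero
    (K := lpMeas ℝ ℝ (MeasurableSpace.comap (others i) inferInstance) 2 (mu J b)) ?_ ?_
  · rw [mem_lpMeas_iff_aestronglyMeasurable]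
    have h : (toL J b (resample J b i F) : Cfg n → ℝ) = (fun y : {j : Fin n // j ≠ i} → Bool =>
        resample J b i F fun j => if hj : j = i then true else y ⟨j, hj⟩) ∘ others i := by
      funext x
      rw [toL_apply, ← Poinc.resample_update J b i F x true]
      refine congrArg _ (funext fun j => ?_)
      by_cases hj : j = i
      · subst hj
        simp
      · simp [hj, others]
    rw [h]
    exact ((measurable_of_finite _).comp (comap_measurable _)).aestronglyMeasurable
  · intro G hG
    obtain ⟨g, hg, hGg⟩ := mem_lpMeas_iff_aestronglyMeasurable.1 hG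
    have h1 : ∀ x, resample J b i G x = G x := by
      intro x
      rw [← Semi.resample_const J b i (G x) x]
      refine Finset.sum_congr rfl fun s _ => ?_
      rw [ae_mu hGg, ae_mu hGg, hg.factorsThrough (others_update i x s)]
    rw [inner_sub_left, inner_eq, inner_eq]
    simp only [toL_apply]
    rw [← Poinc.ex_mul_resample_comm J b hJ]
    simp only [h1, sub_self]

theorem genL_apply (hJ : ∀ i j, J i j = J j i) (F : Lp ℝ 2 (mu J b)) (x : Cfg n) :
    genL J b F x = gen J b F x := by
  show ev (genL J b F) x = _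
  rw [genL, sumGen, sum_apply, map_sum, Finset.sum_apply]
  refine Finset.sum_congr rfl fun i _ => ?_
  rw [sub_apply, map_sub, condQ_eq hJ]
  exact congrArg (· - F x) (toL_apply _ x)

theorem genL_selfAdjoint (hJ : ∀ i j, J i j = J j i) : IsSelfAdjoint (genL J b) := by
  rw [ContinuousLinearMap.isSelfAdjoint_iff_isSymmetric]
  intro F G
  show inner ℝ (genL J b F) G = inner ℝ F (genL J b G)
  rw [real_inner_comm, inner_eq, inner_eq]
  simp only [genL_apply hJ]
  exact neg_injective (Semi.dir_symm b hJ G F)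

theorem genL_ker (hJ : ∀ i j, J i j = J j i) (F : Lp ℝ 2 (mu J b)) :
    genL J b F = 0 ↔ ∃ c, ∀ x, F x = c := by
  constructor
  · intro h
    have h0 : ∀ x, gen J b F x = 0 := fun x => by
      rw [← genL_apply hJ, h]
      exact congrFun (map_zero ev) x
    have h1 : dir J b F F = 0 := by simp [dir, ex, h0]
    exact ⟨_, fun x => Semi.const_of_flip (Semi.flip_eq_of_dir_zero b hJ h1) x fun _ => true⟩
  · rintro ⟨c, hc⟩
    refine L_ext fun x => ?_
    rw [genL_apply hJ, funext hc, Semi.gen_const]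
    exact (congrFun (map_zero ev) x).symm

theorem mem_spec (hJ : ∀ i j, J i j = J j i) (r : ℝ) : r ∈ spectrum ℝ (-genL J b) ↔
    ∃ f : Cfg n → ℝ, f ≠ 0 ∧ ∀ x, gen J b f x = -r * f x := by
  have := fin_L (J := J) (b := b)
  have key : ∀ F : Lp ℝ 2 (mu J b), (-genL J b) F = r • F ↔ ∀ x, gen J b F x = -r * F x := by
    intro F
    have h1 : ∀ x, ((-genL J b) F) x = -gen J b F x := fun x => by
      rw [← genL_apply hJ]
      exact congrFun (map_neg ev (genL J b F)) x
    have h2 : ∀ x, (r • F) x = r * F x := fun x => congrFun (map_smul ev r F) x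
    constructor
    · intro h x
      have := h1 x
      rw [h, h2] at this
      linarith
    · intro h
      refine L_ext fun x => ?_
      rw [h1, h2, h]
      ring
  rw [ContinuousLinearMap.spectrum_eq, ← Module.End.hasEigenvalue_iff_mem_spectrum]
  constructor
  · intro h
    obtain ⟨F, hF⟩ := h.exists_hasEigenvector
    exact ⟨F, fun h0 => hF.2 (L_ext fun x => (congrFun h0 x).trans
      (congrFun (map_zero ev) x).symm), (key F).1 hF.apply_eq_smul⟩
  · rintro ⟨f, hf, h⟩
    have e : (toL J b f : Cfg n → ℝ) = f := funext (toL_apply f)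
    refine Module.End.hasEigenvalue_of_hasEigenvector (x := toL J b f)
      ⟨Module.End.mem_eigenspace_iff.2 ((key _).2 (by rwa [e])), fun h0 => hf ?_⟩
    rw [← e, h0]
    exact map_zero ev

theorem isLeast_gap (hJ : ∀ i j, J i j = J j i) (hn : 0 < n) :
    IsLeast (spectrum ℝ (-genL J b) \ {0}) (gap J b) := by
  obtain ⟨φ, -, h1, -, h2, h3, h4⟩ := Semi.exists_eigen b hJ hn
  refine ⟨⟨(mem_spec hJ _).2 ⟨φ, fun h => ?_, h2⟩, h4.ne'⟩, ?_⟩
  · simp [h, ex] at h1
  · rintro r ⟨hr, hr0⟩
    obtain ⟨f, hf, h⟩ := (mem_spec hJ r).1 hr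
    have h5 : ex J b f = 0 := by
      have := Semi.ex_gen b hJ f
      rw [funext h, Poinc.ex_smul] at this
      exact (mul_eq_zero.1 this).resolve_left (neg_ne_zero.2 hr0)
    have h6 : 0 < ex J b fun x => f x ^ 2 := by
      refine (Poinc.ex_nonneg J b fun x => sq_nonneg _).lt_of_ne' fun h0 => hf (funext fun x => ?_)
      exact pow_eq_zero_iff two_ne_zero |>.1 (Poinc.ex_eq_zero J b (fun x => sq_nonneg _) h0 x)
    have h7 : dir J b f f = r * ex J b fun x => f x ^ 2 := by
      rw [dir, ← Poinc.ex_smul, ← neg_one_mul, ← Poinc.ex_smul]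
      congr 1
      funext x
      rw [h]
      ring
    have h8 := h3 f
    rw [Poinc.var_eq, h5, h7] at h8
    exact le_of_mul_le_mul_right (by simpa using h8) h6

/-- The gap of the generator on `L²(μ)` is the constant of the Poincaré inequality. -/
theorem gapL_eq (hJ : ∀ i j, J i j = J j i) (hn : 0 < n) : gapL J b = gap J b :=
  (isLeast_gap hJ hn).csInf_eq

theorem spectral (hJ : ∀ i j, J i j = J j i) (hn : 0 < n) : Spectral J b :=
  ⟨prob_mu, mu_pos, fun i F x => (congrArg (val J b · x) (condQ_eq hJ i F)).trans (toL_apply _ x),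
    genL_apply hJ, ⟨genL_selfAdjoint hJ, genL_ker hJ⟩,
    (gapL_eq (b := b) hJ hn).symm ▸ Semi.gap_pos b hJ hn,
    (gapL_eq (b := b) hJ hn).symm ▸ isLeast_gap hJ hn⟩

/-! ### Total variation -/

theorem trans_eq {t : ℝ} (ht : 0 ≤ t) (x : Cfg n) (A : Set (Cfg n)) :
    trans J b t x A = ∑ y, A.indicator (kernel J b t x) y := by
  classical
  obtain ⟨hp, h⟩ := dynamics J b
  obtain ⟨h1, h2⟩ := h x
  obtain ⟨h3, h4⟩ := h2 t ht
  have e : event J b t x A = ⋃ y ∈ Finset.univ.filter (· ∈ A), event J b t x {y} := by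
    ext ω
    simp only [event, mem_ofPred_eq, mem_iUnion, Finset.mem_filter, Finset.mem_univ, true_and,
      mem_singleton_iff]
    exact ⟨fun ⟨X, a, c⟩ => ⟨_, c, X, a, rfl⟩, fun ⟨y, c, X, a, d⟩ => ⟨X, a, d ▸ c⟩⟩
  rw [trans, e, measureReal_biUnion_finset₀ _ fun y _ => h3 _, Finset.sum_filter]
  · refine Finset.sum_congr rfl fun y _ => ?_
    rw [indicator_apply, ← h4 y]
    rfl
  · intro y _ z _ hyz
    refine measure_mono_null ?_ (ae_iff.1 h1)
    rintro ω ⟨⟨Y, hY, hy⟩, Z, hZ, hz⟩ ⟨X, -, hX⟩
    exact hyz ((Eq.symm hy).trans (((hX Y hY t ht).trans (hX Z hZ t ht).symm).trans hz))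

theorem sup_eq_half {X : Type*} [Fintype X] (d : X → ℝ) (hd : ∑ y, d y = 0) :
    ⨆ A : Set X, |∑ y, A.indicator d y| = (1 / 2) * ∑ y, |d y| := by
  have e : ∀ A : Set X, ∑ y, A.indicator d y = (1 / 2) * ∑ y, (2 * A.indicator d y - d y) := by
    intro A
    rw [Finset.sum_sub_distrib, hd, ← Finset.mul_sum]
    ring
  refine le_antisymm (ciSup_le fun A => ?_) (le_ciSup_of_le (Finite.bddAbove_range _)
    {y | 0 ≤ d y} ((le_of_eq ?_).trans (le_abs_self _)))
  · rw [e, abs_mul, abs_of_pos one_half_pos]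
    refine mul_le_mul_of_nonneg_left ((Finset.abs_sum_le_sum_abs _ _).trans
      (le_of_eq (Finset.sum_congr rfl fun y _ => ?_))) one_half_pos.le
    by_cases hy : y ∈ A
    · rw [indicator_of_mem hy, two_mul, add_sub_cancel_right]
    · rw [indicator_of_notMem hy, mul_zero, zero_sub, abs_neg]
  · rw [e]
    refine congrArg _ (Finset.sum_congr rfl fun y _ => ?_)
    by_cases hy : 0 ≤ d y
    · rw [indicator_of_mem (show y ∈ {y | 0 ≤ d y} from hy), two_mul, add_sub_cancel_right,
        abs_of_nonneg hy]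
    · rw [indicator_of_notMem (show y ∉ {y | 0 ≤ d y} from hy), mul_zero, zero_sub,
        abs_of_neg (not_le.1 hy)]

theorem tv_eq {t : ℝ} (ht : 0 ≤ t) (x : Cfg n) : tv J b t x = tvDist J b t x := by
  rw [tv, tvDist, ← sup_eq_half (fun y => kernel J b t x y - gibbs J b y)
    (by rw [Finset.sum_sub_distrib, Semi.kernel_row, gibbs_sum, sub_self])]
  refine iSup_congr fun A => ?_
  rw [trans_eq ht, mu_real, ← Finset.sum_sub_distrib]
  refine congrArg _ (Finset.sum_congr rfl fun y _ => ?_)
  by_cases hy : y ∈ A <;> simp [hy]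

/-- The mixing time of the dynamics driven by the clocks is that of the matrix semigroup. -/
theorem mix_eq : mix J b = tmix J b :=
  congrArg sInf (Set.ext fun _ => and_congr_right fun ht => forall_congr' fun x => by
    rw [tv_eq ht])

end Vale.Agent.P150W
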