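import Vale.Agent.P150W51.DiscDefs
import Vale.Agent.P150W51.Spec

/-!
The discrete chain: entropy decay, and comparison with the continuous time.
-/

namespace Vale.Agent.P150W

open MeasureTheory Set Vale.Agent.P150

variable {n : ℕ} {J : Fin n → Fin n → ℝ} {b : Fin n → ℝ}

theorem ex_mul_step (hJ : ∀ i j, J i j = J j i) (f g : Cfg n → ℝ) :
    ex J b (fun x => f x * step J b g x) = ex J b (fun x => step J b f x * g x) := by
  have e1 : (fun x => f x * step J b g x) =
      fun x => (n : ℝ)⁻¹ * ∑ i, f x * resample J b i g x := by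
    funext x
    rw [step, ← Finset.mul_sum]
    ring
  have e2 : (fun x => step J b f x * g x) =
      fun x => (n : ℝ)⁻¹ * ∑ i, resample J b i f x * g x := by
    funext x
    rw [step, ← Finset.sum_mul]
    ring
  rw [e1, e2, Poinc.ex_smul, Poinc.ex_smul, Poinc.ex_sum, Poinc.ex_sum]
  exact congrArg _ (Finset.sum_congr rfl fun i _ => Poinc.ex_mul_resample_comm J b hJ i f g)

theorem ex_mul_iter (hJ : ∀ i j, J i j = J j i) (k : ℕ) (f g : Cfg n → ℝ) :
    ex J b (fun x => f x * (step J b)^[k] g x) = ex J b (fun x => (step J b)^[k] f x * g x) := by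
  induction k generalizing f with
  | zero => rfl
  | succ k ih => rw [Function.iterate_succ_apply', ex_mul_step hJ, ih, Function.iterate_succ_apply]

theorem iter_const (hn : 0 < n) (k : ℕ) (c : ℝ) : (step J b)^[k] (fun _ => c) = fun _ => c := by
  refine Function.iterate_fixed (funext fun x => ?_) k
  have : (n : ℝ) ≠ 0 := by positivity
  simp only [step, Semi.resample_const, Finset.sum_const, Finset.card_univ, Fintype.card_fin,
    nsmul_eq_mul]
  field_simp

theorem iter_nonneg {f : Cfg n → ℝ} (hf : ∀ x, 0 ≤ f x) (k : ℕ) :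
    ∀ x, 0 ≤ (step J b)^[k] f x := by
  induction k with
  | zero => exact hf
  | succ k ih =>
    intro x
    rw [Function.iterate_succ_apply']
    exact div_nonneg (Finset.sum_nonneg fun i _ => resample_nonneg ih i x) n.cast_nonneg

variable (J b) in
/-- The density of the law after `k` attempts. -/
noncomputable def dn (k : ℕ) (x : Cfg n) : Cfg n → ℝ := (step J b)^[k] (Semi.dens J b x 0)

theorem dn_nonneg (k : ℕ) (x y : Cfg n) : 0 ≤ dn J b k x y :=
  iter_nonneg (Semi.dens_nonneg b x le_rfl) k y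

theorem iter_eq (hJ : ∀ i j, J i j = J j i) (k : ℕ) (f : Cfg n → ℝ) (x : Cfg n) :
    (step J b)^[k] f x = ex J b fun y => dn J b k x y * f y := by
  rw [dn, ← ex_mul_iter hJ, ex, Finset.sum_eq_single x]
  · have := (gibbs_pos J b x).ne'
    rw [Semi.dens_zero, if_pos rfl]
    field_simp
  · intro y _ hy
    rw [Semi.dens_zero, if_neg hy.symm, zero_mul, mul_zero]
  · simp

theorem ex_dn (hJ : ∀ i j, J i j = J j i) (hn : 0 < n) (k : ℕ) (x : Cfg n) :
    ex J b (dn J b k x) = 1 := by
  have h := iter_eq (b := b) hJ k (fun _ => 1) x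
  rw [iter_const hn] at h
  simpa using h.symm

theorem tvStep_eq (hJ : ∀ i j, J i j = J j i) (hn : 0 < n) (k : ℕ) (x : Cfg n) :
    tvStep J b k x = (1 / 2) * ∑ y, gibbs J b y * |dn J b k x y - 1| := by
  have h := sup_eq_half (fun y => gibbs J b y * (dn J b k x y - 1)) (by
    have := ex_dn (b := b) hJ hn k x
    simp only [mul_sub, mul_one, Finset.sum_sub_distrib, gibbs_sum]
    exact sub_eq_zero.2 this)
  simp only [abs_mul, abs_of_pos (gibbs_pos J b _)] at h
  rw [tvStep, ← h]
  refine iSup_congr fun A => ?_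
  rw [iter_eq hJ, mu_real, ex, ← Finset.sum_sub_distrib]
  refine congrArg _ (Finset.sum_congr rfl fun y _ => ?_)
  by_cases hy : y ∈ A <;> simp [hy, mul_sub]

/-! ### Entropy decay -/

theorem ent_step (hJ : ∀ i j, J i j = J j i) (hn : 0 < n) {C : ℝ} (hC : 0 < C)
    (hA : ∀ f : Cfg n → ℝ, (∀ x, 0 ≤ f x) →
      ex J b (fun x => f x * Real.log (f x)) - ex J b f * Real.log (ex J b f)
        ≤ C * ∑ i, (ex J b (fun x => f x * Real.log (f x))
          - ex J b (fun x => resample J b i f x * Real.log (resample J b i f x))))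
    (x : Cfg n) (k : ℕ) : ex J b (fun y => dn J b k x y * Real.log (dn J b k x y)) ≤
      Real.exp (-(k / (C * n))) * -Real.log (gibbs J b x) := by
  have hn' : (0 : ℝ) < n := by positivity
  induction k with
  | zero =>
    have := Semi.entg_dens_zero (J := J) b x
    rw [Semi.entg, Semi.ex_dens, Real.log_one, mul_zero, sub_zero] at this
    simp only [Nat.cast_zero, zero_div, neg_zero, Real.exp_zero, one_mul]
    exact this.le
  | succ k ih =>
    set h := dn J b k x with hh
    set E := ex J b fun y => h y * Real.log (h y) with hE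
    have h0 : ∀ y, 0 ≤ h y := dn_nonneg k x
    have h1 : ex J b h = 1 := ex_dn hJ hn k x
    have hE0 : 0 ≤ E := by
      have := (sq_nonneg _).trans (Semi.pinsker b h h0 h1)
      linarith
    have h2 := hA h h0
    rw [h1, Real.log_one, mul_zero, sub_zero, Finset.sum_sub_distrib, Finset.sum_const,
      Finset.card_univ, Fintype.card_fin, nsmul_eq_mul, ← hE] at h2
    have h3 : ∀ y, dn J b (k + 1) x y * Real.log (dn J b (k + 1) x y) ≤
        (n : ℝ)⁻¹ * ∑ i, resample J b i h y * Real.log (resample J b i h y) := by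
      intro y
      have e : dn J b (k + 1) x y = ∑ i : Fin n, (n : ℝ)⁻¹ • resample J b i h y := by
        rw [dn, Function.iterate_succ_apply', step, ← Finset.smul_sum, smul_eq_mul,
          inv_mul_eq_div]
        rfl
      have := Real.convexOn_mul_log.map_sum_le (t := Finset.univ) (w := fun _ : Fin n => (n : ℝ)⁻¹)
        (p := fun i => resample J b i h y) (fun _ _ => by positivity) (by simp [hn.ne'])
        fun i _ => resample_nonneg h0 i y
      rw [e, Finset.mul_sum]
      exact this
    have h4 := Poinc.ex_mono J b h3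
    rw [Poinc.ex_smul, Poinc.ex_sum] at h4
    set S := ∑ i, ex J b fun y => resample J b i h y * Real.log (resample J b i h y)
    have h5 : (n : ℝ)⁻¹ * S ≤ (1 - 1 / (C * n)) * E := by
      rw [inv_mul_le_iff₀ hn']
      have : (n : ℝ) * ((1 - 1 / (C * n)) * E) = n * E - E / C := by field_simp
      rw [this, le_sub_comm, div_le_iff₀' hC]
      exact h2
    have h6 : 1 - 1 / (C * n) ≤ Real.exp (-(1 / (C * n))) := by
      have := Real.add_one_le_exp (-(1 / (C * n)))
      linarith
    refine h4.trans (h5.trans ((mul_le_mul_of_nonneg_right h6 hE0).trans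
      ((mul_le_mul_of_nonneg_left ih (Real.exp_pos _).le).trans (le_of_eq ?_))))
    rw [← mul_assoc, ← Real.exp_add]
    congr 2
    push_cast
    ring

theorem tvStep_le (hJ : ∀ i j, J i j = J j i) (hn : 32 ≤ n) {C : ℝ} (hC : 0 < C)
    (hA : ∀ f : Cfg n → ℝ, (∀ x, 0 ≤ f x) →
      ex J b (fun x => f x * Real.log (f x)) - ex J b f * Real.log (ex J b f)
        ≤ C * ∑ i, (ex J b (fun x => f x * Real.log (f x))
          - ex J b (fun x => resample J b i f x * Real.log (resample J b i f x))))
    (hg : ∀ x, -Real.log (gibbs J b x) ≤ 4 * n) {k : ℕ} (hk : 2 * C * n * Real.log n ≤ k)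
    (x : Cfg n) : tvStep J b k x ≤ 1 / 4 := by
  have hn0 : 0 < n := by omega
  have hn' : (32 : ℝ) ≤ n := by exact_mod_cast hn
  have h1 := Semi.pinsker b (dn J b k x) (dn_nonneg k x) (ex_dn hJ hn0 k x)
  have h2 := (ent_step hJ hn0 hC hA x k).trans
    (mul_le_mul_of_nonneg_left (hg x) (Real.exp_pos _).le)
  have h3 : Real.exp (-(k / (C * n))) ≤ ((n : ℝ) * n)⁻¹ := by
    rw [← Real.exp_log (show (0 : ℝ) < ((n : ℝ) * n)⁻¹ by positivity), Real.exp_le_exp,
      Real.log_inv, Real.log_mul (by positivity) (by positivity), neg_le_neg_iff,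
      le_div_iff₀ (by positivity)]
    linarith
  have h4 : ((n : ℝ) * n)⁻¹ * (4 * n) ≤ 1 / 8 := by
    rw [inv_mul_le_iff₀ (by positivity)]
    nlinarith
  have h5 := mul_le_mul_of_nonneg_right h3 (show (0 : ℝ) ≤ 4 * n by positivity)
  have h6 := (abs_le_of_sq_le_sq' (b := 1 / 2) (h1.trans (by linarith)) (by norm_num)).2
  rw [tvStep_eq hJ hn0]
  linarith

/-! ### Comparison with the continuous time -/

theorem iter_abs_le (hJ : ∀ i j, J i j = J j i) (hn : 0 < n) {f : Cfg n → ℝ} {c : ℝ}
    (hf : ∀ y, |f y| ≤ c) (k : ℕ) (x : Cfg n) : |(step J b)^[k] f x| ≤ c := by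
  rw [iter_eq hJ, abs_le]
  have h := ex_dn (b := b) hJ hn k x
  constructor
  · refine le_trans (le_of_eq ?_) (Poinc.ex_mono J b (f := fun y => -c * dn J b k x y) fun y => ?_)
    · rw [Poinc.ex_smul, h, mul_one]
    · rw [mul_comm]
      exact mul_le_mul_of_nonneg_left (abs_le.1 (hf y)).1 (dn_nonneg k x y)
  · refine le_trans (Poinc.ex_mono J b (g := fun y => c * dn J b k x y) fun y => ?_) (le_of_eq ?_)
    · rw [mul_comm c]
      exact mul_le_mul_of_nonneg_left (abs_le.1 (hf y)).2 (dn_nonneg k x y)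
    · rw [Poinc.ex_smul, h, mul_one]

theorem iter_two (hJ : ∀ i j, J i j = J j i) (hn : 0 < n) {k : ℕ}
    (hk : ∀ x, tvStep J b k x ≤ 1 / 4) (A : Set (Cfg n)) (x : Cfg n) :
    |(step J b)^[k + k] (fun y => A.indicator 1 y - (mu J b).real A) x| ≤ 1 / 8 := by
  set g := (step J b)^[k] fun y => A.indicator 1 y - (mu J b).real A with hg
  have h1 : ∀ y, |g y| ≤ 1 / 4 := by
    intro y
    refine le_trans (le_of_eq ?_) ((le_ciSup (f := fun A : Set (Cfg n) =>
      |(step J b)^[k] (A.indicator 1) y - (mu J b).real A|) (Finite.bddAbove_range _) A).trans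
      (hk y))
    rw [hg, iter_eq hJ, iter_eq hJ]
    simp only [mul_sub]
    rw [Poinc.ex_sub]
    simp only [mul_comm _ ((mu J b).real A)]
    rw [Poinc.ex_smul, ex_dn hJ hn, mul_one]
  have h2 : ex J b g = 0 := by
    have := ex_mul_iter (b := b) hJ k (fun _ => 1) fun y => A.indicator 1 y - (mu J b).real A
    rw [iter_const hn] at this
    simp only [one_mul] at this
    rw [hg, show ex J b ((step J b)^[k] fun y => A.indicator 1 y - (mu J b).real A) = _ from this,
      Poinc.ex_sub, Poinc.ex_const, ← integral_mu, integral_indicator_one .of_discrete, sub_self]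
  have h3 := hk x
  rw [tvStep_eq hJ hn] at h3
  have h4 : (step J b)^[k] g x = ∑ y, gibbs J b y * ((dn J b k x y - 1) * g y) := by
    rw [iter_eq hJ, ← sub_zero (ex _ _ _), ← h2, ← Poinc.ex_sub]
    exact Finset.sum_congr rfl fun y _ => by ring
  rw [Function.iterate_add_apply, ← hg, h4]
  refine (Finset.abs_sum_le_sum_abs _ _).trans (le_trans (Finset.sum_le_sum (g := fun y =>
    gibbs J b y * |dn J b k x y - 1| * (1 / 4)) fun y _ => ?_) ?_)
  · rw [abs_mul, abs_mul, abs_of_pos (gibbs_pos J b y), ← mul_assoc]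
    exact mul_le_mul_of_nonneg_left (h1 y) (mul_nonneg (gibbs_pos J b y).le (abs_nonneg _))
  · rw [← Finset.sum_mul]
    linarith

theorem pow_shift (hn : 0 < n) (j : ℕ) (f : Cfg n → ℝ) (x : Cfg n) :
    ∑ y, ((genMat J b + (n : ℝ) • (1 : Matrix (Cfg n) (Cfg n) ℝ)) ^ j) x y * f y =
      (n : ℝ) ^ j * (step J b)^[j] f x := by
  have hn' : (n : ℝ) ≠ 0 := by positivity
  induction j generalizing f with
  | zero => simp [Matrix.one_apply]
  | succ j ih =>
    have e : ∀ z, ∑ y, (genMat J b + (n : ℝ) • (1 : Matrix (Cfg n) (Cfg n) ℝ)) z y * f y =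
        n * step J b f z := by
      intro z
      simp only [Matrix.add_apply, add_mul, Finset.sum_add_distrib, Semi.genMat_mul,
        Matrix.smul_apply, Matrix.one_apply, smul_eq_mul, mul_ite, ite_mul, mul_one, mul_zero,
        zero_mul, Finset.sum_ite_eq, Finset.mem_univ, if_true, gen, step, Finset.sum_sub_distrib,
        Finset.sum_const, Finset.card_univ, Fintype.card_fin, nsmul_eq_mul]
      field_simp
      ring
    rw [pow_succ, Function.iterate_succ_apply, pow_succ', mul_assoc, ← ih, Finset.mul_sum]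
    simp only [Matrix.mul_apply, Finset.sum_mul]
    rw [Finset.sum_comm]
    refine Finset.sum_congr rfl fun z _ => ?_
    simp only [mul_assoc]
    rw [← Finset.mul_sum, e]
    ring

theorem hasSum_kernel (hn : 0 < n) (t : ℝ) (f : Cfg n → ℝ) (x : Cfg n) :
    HasSum (fun j : ℕ => Real.exp (-(t * n)) * ((t * n) ^ j / j.factorial) * (step J b)^[j] f x)
      (∑ y, kernel J b t x y * f y) := by
  set M := genMat J b + (n : ℝ) • (1 : Matrix (Cfg n) (Cfg n) ℝ) with hM
  have h1 : t • genMat J b = t • M + (-(t * n)) • (1 : Matrix (Cfg n) (Cfg n) ℝ) := by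
    rw [hM, smul_add, smul_smul, add_assoc, ← add_smul]
    simp
  have h2 : kernel J b t = Real.exp (-(t * n)) • NormedSpace.exp (t • M) := by
    rw [kernel, h1, Matrix.exp_add_of_commute _ _ ((Commute.one_right _).smul_right _),
      Semi.sg_exp_scalar, mul_smul_comm, mul_one]
  have h3 := (hasSum_sum (s := Finset.univ) fun y _ =>
    (Pi.hasSum.1 (Pi.hasSum.1 (Semi.sg_hasSum (t • M)) x) y).mul_right (f y)).mul_left
    (Real.exp (-(t * n)))
  have e1 : ∑ y, kernel J b t x y * f y =
      Real.exp (-(t * n)) * ∑ y, NormedSpace.exp (t • M) x y * f y := by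
    rw [h2, Finset.mul_sum]
    exact Finset.sum_congr rfl fun y _ => by rw [Matrix.smul_apply, smul_eq_mul, mul_assoc]
  rw [e1]
  refine (congrArg (HasSum · _) (funext fun j => ?_)).mp h3
  simp only [smul_pow, Matrix.smul_apply, smul_eq_mul, mul_assoc, ← Finset.mul_sum]
  rw [hM, pow_shift hn, mul_pow]
  ring

/-- If the discrete chain is mixed after `k` attempts, the mixing time is at most `(4 k + 6) / n`. -/
theorem mix_le (hJ : ∀ i j, J i j = J j i) (hn : 0 < n) {k : ℕ}
    (hk : ∀ x, tvStep J b k x ≤ 1 / 4) : n * mix J b ≤ 4 * k + 6 := by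
  have hn' : (0 : ℝ) < n := by positivity
  have ht : (0 : ℝ) ≤ (4 * k + 6) / n := by positivity
  rw [← le_div_iff₀' hn']
  refine csInf_le ⟨0, fun _ h => h.1⟩ ⟨ht, fun x => ciSup_le fun A => ?_⟩
  set l : ℝ := 4 * k + 6 with hl
  have hp := prob_mu (J := J) (b := b)
  set f : Cfg n → ℝ := fun y => A.indicator 1 y - (mu J b).real A with hf
  have h1 := hasSum_kernel (J := J) (b := b) hn (l / n) f x
  rw [div_mul_cancel₀ _ hn'.ne'] at h1
  have e : trans J b (l / n) x A - (mu J b).real A = ∑ y, kernel J b (l / n) x y * f y := by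
    simp only [hf, mul_sub, Finset.sum_sub_distrib, ← Finset.sum_mul, Semi.kernel_row, one_mul]
    rw [trans_eq ht]
    refine congrArg (· - _) (Finset.sum_congr rfl fun y _ => ?_)
    by_cases hy : y ∈ A <;> simp [hy]
  have hf1 : ∀ y, |f y| ≤ 1 := by
    intro y
    have a1 : 0 ≤ (mu J b).real A := measureReal_nonneg
    have a2 : (mu J b).real A ≤ 1 := measureReal_le_one
    rw [abs_le]
    by_cases hy : y ∈ A <;> simp [hf, hy] <;> linarith
  have h2 : ∀ j, |(step J b)^[j] f x| ≤ 1 / 8 + 4 ^ k * (1 / 2) ^ j := by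
    intro j
    rcases le_or_gt (k + k) j with h | h
    · obtain ⟨m, rfl⟩ := Nat.exists_eq_add_of_le' h
      rw [Function.iterate_add_apply]
      exact (iter_abs_le hJ hn (iter_two hJ hn hk A) m x).trans
        (le_add_of_nonneg_right (by positivity))
    · have a1 : (1 / 2 : ℝ) ^ (k + k) ≤ (1 / 2) ^ j :=
        pow_le_pow_of_le_one (by norm_num) (by norm_num) h.le
      have a2 : (4 : ℝ) ^ k * (1 / 2) ^ (k + k) = 1 := by
        rw [pow_add, ← mul_pow, ← mul_pow]
        norm_num
      have a3 := mul_le_mul_of_nonneg_left a1 (show (0 : ℝ) ≤ 4 ^ k by positivity)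
      linarith [iter_abs_le (b := b) hJ hn hf1 j x]
  have hexp : ∀ r : ℝ, HasSum (fun j : ℕ => r ^ j / j.factorial) (Real.exp r) := fun r =>
    Real.exp_eq_exp_ℝ ▸ NormedSpace.expSeries_div_hasSum_exp r
  have h3 := (((hexp l).mul_left (1 / 8)).add ((hexp (l / 2)).mul_left (4 ^ k))).mul_left
    (Real.exp (-l))
  have h4 := h1.norm_le_of_bounded h3 fun j => by
    have a1 : 0 ≤ Real.exp (-l) * (l ^ j / j.factorial) := by positivity
    rw [Real.norm_eq_abs, abs_mul, abs_of_nonneg a1]
    refine (mul_le_mul_of_nonneg_left (h2 j) a1).trans (le_of_eq ?_)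
    rw [div_pow l, one_div_pow]
    ring
  rw [e]
  refine h4.trans ?_
  have a1 : Real.exp (-l) * Real.exp l = 1 := by rw [← Real.exp_add, neg_add_cancel, Real.exp_zero]
  have a2 : Real.exp (-l) * Real.exp (l / 2) = Real.exp (-2) ^ k * Real.exp (-1) ^ 3 := by
    rw [← Real.exp_add, ← Real.exp_nat_mul, ← Real.exp_nat_mul, ← Real.exp_add, hl]
    congr 1
    push_cast
    ring
  have a3 : Real.exp (-1) ≤ 1 / 2 := by
    rw [Real.exp_neg, one_div]
    exact inv_anti₀ two_pos (by linarith [Real.add_one_le_exp 1])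
  have a4 : Real.exp (-1) ^ 3 ≤ (1 / 2) ^ 3 := pow_le_pow_left₀ (Real.exp_pos _).le a3 3
  have a5 : (4 : ℝ) ^ k * Real.exp (-2) ^ k ≤ 1 := by
    rw [← mul_pow]
    refine pow_le_one₀ (by positivity) ?_
    have : Real.exp (-2) = Real.exp (-1) ^ 2 := by
      rw [← Real.exp_nat_mul]
      norm_num
    have a6 := pow_le_pow_left₀ (Real.exp_pos _).le a3 2
    linarith
  have a6 := mul_le_mul a5 a4 (by positivity) zero_le_one
  have a7 : Real.exp (-l) * (1 / 8 * Real.exp l + 4 ^ k * Real.exp (l / 2)) =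
      1 / 8 * (Real.exp (-l) * Real.exp l) + 4 ^ k * (Real.exp (-l) * Real.exp (l / 2)) := by ring
  rw [a7, a1, a2, ← mul_assoc]
  linarith

end Vale.Agent.P150W
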