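import Vale.Agent.P150W51.Defs

/-!
The discrete chain, which updates one uniformly chosen site per attempt.
-/

namespace Vale.Agent.P150W

open MeasureTheory Vale.Agent.P150

variable {n : ℕ} (J : Fin n → Fin n → ℝ) (b : Fin n → ℝ)

/-- One update attempt, acting on functions: a uniformly chosen site is resampled. -/
noncomputable def step (f : Cfg n → ℝ) (x : Cfg n) : ℝ := (∑ i, resample J b i f x) / n

/-- The total variation distance to `μ` after `k` attempts from `x`. -/
noncomputable def tvStep (k : ℕ) (x : Cfg n) : ℝ :=
  ⨆ A : Set (Cfg n), |(step J b)^[k] (A.indicator 1) x - (mu J b).real A|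

end Vale.Agent.P150W
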