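import Vale.Agent.P150W51.Path
import Vale.Agent.P150.Bdl.B13

/-!
The law of the dynamics at the time `t` is `exp (t L)`: the renewal equation.
-/

namespace Vale.Agent.P150W

open MeasureTheory ProbabilityTheory Set Filter Topology Vale.Agent.P150
open scoped ENNReal

attribute [local instance] prob_E1 prob_U1 prob_clock

variable {n : ℕ} (J : Fin n → Fin n → ℝ) (b : Fin n → ℝ)

/-- The operator of the renewal equation. -/
noncomputable def Phi (w : ℝ → Cfg n → ℝ≥0∞) (t : ℝ) (x : Cfg n) : ℝ≥0∞ :=
  ∑ m, ∫⁻ a, cc a.1 ^ (n - 1) * (if a.1 ≤ t then w (t - a.1) (heat J b x m a.2) else 0) ∂nu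

/-- The probability of less than `k` rings and the position `y`. -/
noncomputable def uu (k : ℕ) (y : Cfg n) (t : ℝ) (x : Cfg n) : ℝ≥0∞ :=
  clockLaw n (Prod.mk t ⁻¹' EE J b k x y)

variable {J b}

theorem measurable_uu (k : ℕ) (y x : Cfg n) : Measurable fun t => uu J b k y t x :=
  measurable_measure_prodMk_left (measurableSet_EE k x y)

theorem measurable_int {w : ℝ → Cfg n → ℝ≥0∞} (hw : ∀ z, Measurable fun s => w s z) (t : ℝ)
    (x : Cfg n) (m : Fin n) : Measurable fun a : ℝ × ℝ =>
      cc a.1 ^ (n - 1) * (if a.1 ≤ t then w (t - a.1) (heat J b x m a.2) else 0) := by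
  refine ((measurable_cc.comp measurable_fst).pow_const _).mul
    (Measurable.ite (measurableSet_le measurable_fst measurable_const) ?_ measurable_const)
  have h1 : Measurable fun p : ℝ × Cfg n => w p.1 p.2 := measurable_from_prod_countable_left hw
  exact h1.comp (f := fun a : ℝ × ℝ => (t - a.1, heat J b x m a.2))
    (Measurable.prodMk (by fun_prop) ((measurable_heat x m).comp measurable_snd))

theorem Phi_mono {w w' : ℝ → Cfg n → ℝ≥0∞} {t : ℝ}
    (h : ∀ s, 0 ≤ s → s ≤ t → ∀ z, w s z ≤ w' s z) (x : Cfg n) :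
    Phi J b w t x ≤ Phi J b w' t x := by
  refine Finset.sum_le_sum fun m _ => lintegral_mono_ae ?_
  filter_upwards [nu_pos] with a ha
  split_ifs with h1
  · exact mul_le_mul_right (h _ (by linarith) (by linarith) _) _
  · exact le_rfl

theorem Phi_add {w : ℝ → Cfg n → ℝ≥0∞} (hw : ∀ z, Measurable fun s => w s z) (c : ℝ≥0∞)
    (t : ℝ) (x : Cfg n) :
    Phi J b (fun s z => w s z + c) t x = Phi J b w t x + c * Phi J b (fun _ _ => 1) t x := by
  unfold Phi
  rw [Finset.mul_sum, ← Finset.sum_add_distrib]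
  refine Finset.sum_congr rfl fun m _ => ?_
  rw [← lintegral_const_mul _ (measurable_int (J := J) (b := b) (w := fun _ _ => 1)
      (fun _ => measurable_const) t x m),
    ← lintegral_add_left (measurable_int hw t x m)]
  refine lintegral_congr fun a => ?_
  split_ifs
  · ring
  · simp

theorem disjoint_first {m m' : Fin n} (h : m ≠ m') : Disjoint (first m) (first m') :=
  Set.disjoint_left.2 fun _ h1 h2 => lt_asymm (h1 m' h.symm) (h2 m h)

theorem measure_split {t : ℝ} {S : Set (Clocks n)} (hS : ∀ ω ∈ S, ∀ i, t < (ω i 0).1)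
    {B : Fin n → Set (Clocks n)} (hB : ∀ m, MeasurableSet (B m))
    (hB' : ∀ m, ∀ ω ∈ B m, (ω m 0).1 ≤ t) :
    clockLaw n (S ∪ ⋃ m, first m ∩ B m) = clockLaw n S +
      ∑ m, ∫⁻ a, cc a.1 ^ (n - 1) * clockLaw n (push m a ⁻¹' B m) ∂nu := by
  have hm := fun m => (measurableSet_first m).inter (hB m)
  rw [measure_union _ (MeasurableSet.iUnion hm), measure_iUnion _ hm, tsum_fintype]
  · simp only [first_ring _ (hB _)]
  · exact fun m m' h => (disjoint_first h).mono inter_subset_left inter_subset_left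
  · refine Set.disjoint_left.2 fun ω h1 h2 => ?_
    obtain ⟨m, -, h3⟩ := mem_iUnion.1 h2
    linarith [hS ω h1 m, hB' m ω h3]

theorem Phi_one {t : ℝ} (ht : 0 ≤ t) (x : Cfg n) :
    cc t ^ n + Phi J b (fun _ _ => 1) t x ≤ 1 := by
  have h := measure_split (n := n) (t := t) (S := {ω | ∀ i, t < (ω i 0).1}) (fun _ h => h)
    (B := fun m => {ω | (ω m 0).1 ≤ t})
    (fun m => measurableSet_le (by fun_prop) measurable_const) fun _ _ h => h
  rw [clock_none ht] at h
  refine le_trans (le_of_eq ?_) (h ▸ prob_le_one)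
  congr 1
  refine Finset.sum_congr rfl fun m _ => lintegral_congr fun a => ?_
  congr 1
  have e : push m a ⁻¹' {ω : Clocks n | (ω m 0).1 ≤ t} = if a.1 ≤ t then univ else ∅ := by
    ext ω
    split_ifs with h1 <;> simp [push_self, h1]
  rw [e]
  split_ifs <;> simp

theorem uu_succ (k : ℕ) (y : Cfg n) {t : ℝ} (ht : 0 ≤ t) (x : Cfg n) :
    uu J b (k + 1) y t x = (if x = y then cc t ^ n else 0) + Phi J b (uu J b k y) t x := by
  have hB : ∀ m, MeasurableSet {ω : Clocks n | (ω m 0).1 ≤ t ∧
      (t - (ω m 0).1, pop m ω) ∈ EE J b k (heat J b x m (ω m 0).2) y} := by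
    intro m
    refine MeasurableSet.inter (measurableSet_le (f := fun ω : Clocks n => (ω m 0).1)
      (by fun_prop) measurable_const) ?_
    have e : {ω : Clocks n | (t - (ω m 0).1, pop m ω) ∈ EE J b k (heat J b x m (ω m 0).2) y} =
        ⋃ z, (fun ω : Clocks n => heat J b x m (ω m 0).2) ⁻¹' {z} ∩
          (fun ω : Clocks n => (t - (ω m 0).1, pop m ω)) ⁻¹' EE J b k z y := by
      ext p
      simp
    show MeasurableSet {ω : Clocks n |
      (t - (ω m 0).1, pop m ω) ∈ EE J b k (heat J b x m (ω m 0).2) y}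
    rw [e]
    refine MeasurableSet.iUnion fun z => MeasurableSet.inter ?_ ?_
    · exact ((measurable_heat x m).comp (by fun_prop)) (measurableSet_singleton z)
    · exact Measurable.prodMk (by fun_prop) (measurable_pop m) (measurableSet_EE k z y)
  have h := measure_split (n := n) (t := t) (S := {ω | (∀ i, t < (ω i 0).1) ∧ x = y})
    (fun _ h => h.1) hB fun _ _ h => h.1
  have e : Prod.mk t ⁻¹' EE J b (k + 1) x y = {ω | (∀ i, t < (ω i 0).1) ∧ x = y} ∪
      ⋃ m, first m ∩ {ω : Clocks n | (ω m 0).1 ≤ t ∧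
        (t - (ω m 0).1, pop m ω) ∈ EE J b k (heat J b x m (ω m 0).2) y} := by
    ext ω
    simp only [mem_preimage, mem_EE, mem_union, mem_iUnion, mem_inter_iff, mem_ofPred_eq]
  rw [uu, e, h]
  congr 1
  · split_ifs with h1
    · rw [← clock_none ht]
      simp [h1]
    · simp [h1]
  · refine Finset.sum_congr rfl fun m _ => lintegral_congr fun a => ?_
    congr 1
    have e2 : push m a ⁻¹' {ω : Clocks n | (ω m 0).1 ≤ t ∧
        (t - (ω m 0).1, pop m ω) ∈ EE J b k (heat J b x m (ω m 0).2) y} =
        if a.1 ≤ t then Prod.mk (t - a.1) ⁻¹' EE J b k (heat J b x m a.2) y else ∅ := by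
      ext ω
      split_ifs with h1 <;> simp [push_self, pop_push, h1]
    rw [e2]
    split_ifs
    · rfl
    · simp

/-! ### The exponential of the generator solves the renewal equation -/

theorem lintegral_heat (x : Cfg n) (m : Fin n) {g : Cfg n → ℝ} (hg : ∀ z, 0 ≤ g z) :
    ∫⁻ u, ENNReal.ofReal (g (heat J b x m u)) ∂U1 = ENNReal.ofReal (resample J b m g x) := by
  have h1 := Semi.resample_weight_nonneg J b x m true
  have h0 := Semi.resample_weight_nonneg J b x m false
  have hs := Semi.resample_weight_sum J b x m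
  rw [Fintype.sum_bool] at hs
  rw [resample, Fintype.sum_bool]
  have e1 : sp true * locField J b x m = locField J b x m := by simp [sp]
  rw [e1] at h1 hs ⊢
  set p := Real.exp (locField J b x m) / (2 * Real.cosh (locField J b x m)) with hp
  set q := Real.exp (sp false * locField J b x m) / (2 * Real.cosh (locField J b x m))
  have e : ∀ u, ENNReal.ofReal (g (heat J b x m u)) =
      (Iio p).indicator (fun _ => ENNReal.ofReal (g (Function.update x m true))) u +
      (Ici p).indicator (fun _ => ENNReal.ofReal (g (Function.update x m false))) u := by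
    intro u
    rw [heat, ← hp]
    by_cases h : u < p
    · simp [h, not_le.2 h]
    · simp [h, not_lt.1 h]
  have a1 : Iio p ∩ Icc 0 1 = Ico 0 p := by
    ext u
    simp only [mem_inter_iff, mem_Iio, mem_Icc, mem_Ico]
    exact ⟨fun h => ⟨h.2.1, h.1⟩, fun h => ⟨h.2, h.1, by linarith [h.2]⟩⟩
  have a2 : Ici p ∩ Icc 0 1 = Icc p 1 := by
    ext u
    simp only [mem_inter_iff, mem_Ici, mem_Icc]
    exact ⟨fun h => ⟨h.1, h.2.2⟩, fun h => ⟨h.1, by linarith [h.1], h.2⟩⟩
  simp only [e]
  rw [lintegral_add_left (measurable_const.indicator measurableSet_Iio),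
    lintegral_indicator_const measurableSet_Iio, lintegral_indicator_const measurableSet_Ici,
    Measure.restrict_apply measurableSet_Iio, Measure.restrict_apply measurableSet_Ici, a1, a2,
    Real.volume_Ico, Real.volume_Icc, ← ENNReal.ofReal_mul (hg _), ← ENNReal.ofReal_mul (hg _),
    ← ENNReal.ofReal_add (mul_nonneg (hg _) (by linarith)) (mul_nonneg (hg _) (by linarith))]
  congr 1
  rw [show q = 1 - p by linarith]
  ring

theorem hasDerivAt_kernel (t : ℝ) (x y : Cfg n) : HasDerivAt (fun s => kernel J b s x y)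
    (∑ m, resample J b m (fun z => kernel J b t z y) x - n * kernel J b t x y) t := by
  have h := Semi.sg_deriv' (genMat J b) t x y
  rw [Matrix.mul_apply] at h
  have h2 := Semi.genMat_mul J b (fun z => kernel J b t z y) x
  rw [gen, Finset.sum_sub_distrib, Finset.sum_const, Finset.card_univ, Fintype.card_fin,
    nsmul_eq_mul] at h2
  rw [← h2]
  exact h

theorem continuous_kernel (x y : Cfg n) : Continuous fun s => kernel J b s x y :=
  continuous_iff_continuousAt.2 fun t => (hasDerivAt_kernel t x y).continuousAt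

theorem continuous_res (t : ℝ) (x y : Cfg n) (m : Fin n) : Continuous fun s =>
    Real.exp (-s) ^ n * resample J b m (fun z => kernel J b (t - s) z y) x := by
  unfold resample
  refine Continuous.mul (by fun_prop) (continuous_finsetSum _ fun c _ => continuous_const.mul ?_)
  exact (continuous_kernel _ y).comp (by fun_prop)

theorem duhamel (t : ℝ) (x y : Cfg n) : kernel J b t x y =
    (if x = y then Real.exp (-t) ^ n else 0) + ∑ m, ∫ s in (0 : ℝ)..t,
      Real.exp (-s) ^ n * resample J b m (fun z => kernel J b (t - s) z y) x := by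
  have hd : ∀ s ∈ uIcc 0 t, HasDerivAt (fun s => -(Real.exp (-(n * s)) * kernel J b (t - s) x y))
      (∑ m, Real.exp (-s) ^ n * resample J b m (fun z => kernel J b (t - s) z y) x) s := by
    intro s _
    have h1 : HasDerivAt (fun s : ℝ => Real.exp (-(n * s))) (Real.exp (-(n * s)) * -(n * 1)) s :=
      ((hasDerivAt_id s).const_mul (n : ℝ)).neg.exp
    have h2 := (hasDerivAt_kernel (J := J) (b := b) (t - s) x y).comp s
      ((hasDerivAt_id s).const_sub t)
    refine (h1.mul h2).neg.congr_deriv ?_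
    rw [← Finset.mul_sum, ← Real.exp_nat_mul, mul_neg (n : ℝ) s]
    simp only [Function.comp]
    ring
  have h := intervalIntegral.integral_eq_sub_of_hasDerivAt hd
    ((continuous_finsetSum _ fun m _ => continuous_res t x y m).intervalIntegrable _ _)
  rw [intervalIntegral.integral_finsetSum
    fun m _ => (continuous_res t x y m).intervalIntegrable _ _] at h
  rw [h, sub_self, Semi.kernel_zero, ← Real.exp_nat_mul, mul_neg]
  split_ifs <;> simp

theorem resample_nonneg {g : Cfg n → ℝ} (hg : ∀ z, 0 ≤ g z) (m : Fin n) (x : Cfg n) :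
    0 ≤ resample J b m g x :=
  Finset.sum_nonneg fun s _ => mul_nonneg (Semi.resample_weight_nonneg J b x m s) (hg _)

theorem kernel_renewal (y : Cfg n) {t : ℝ} (ht : 0 ≤ t) (x : Cfg n) :
    ENNReal.ofReal (kernel J b t x y) = (if x = y then cc t ^ n else 0) +
      Phi J b (fun s z => ENNReal.ofReal (kernel J b s z y)) t x := by
  have hnn : ∀ m, ∀ s ∈ Icc 0 t,
      0 ≤ Real.exp (-s) ^ n * resample J b m (fun z => kernel J b (t - s) z y) x := fun m s hs =>
    mul_nonneg (by positivity)
      (resample_nonneg (fun z => Semi.kernel_nonneg J b (by linarith [hs.2]) z y) m x)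
  have hI : ∀ m, 0 ≤ ∫ s in (0 : ℝ)..t,
      Real.exp (-s) ^ n * resample J b m (fun z => kernel J b (t - s) z y) x := fun m =>
    intervalIntegral.integral_nonneg ht (hnn m)
  rw [duhamel, ENNReal.ofReal_add (by split_ifs <;> positivity) (Finset.sum_nonneg fun m _ => hI m),
    ENNReal.ofReal_sum_of_nonneg fun m _ => hI m]
  congr 1
  · split_ifs
    · rw [cc, ENNReal.ofReal_pow (Real.exp_pos _).le]
    · exact ENNReal.ofReal_zero
  refine Finset.sum_congr rfl fun m _ => ?_
  have hm := measurable_int (J := J) (b := b) (w := fun s z => ENNReal.ofReal (kernel J b s z y))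
    (fun z => (continuous_kernel z y).measurable.ennreal_ofReal) t x m
  rw [lintegral_prod _ hm.aemeasurable, intervalIntegral.integral_of_le ht,
    ← integral_Icc_eq_integral_Ioc, ofReal_integral_eq_lintegral_ofReal
      (continuous_res t x y m).integrableOn_Icc
      ((ae_restrict_iff' measurableSet_Icc).2 (Eventually.of_forall (hnn m))),
    ← lintegral_indicator measurableSet_Icc]
  have hE : E1 = volume.withDensity fun s => ENNReal.ofReal (exponentialPDFReal 1 s) := rfl
  rw [hE, lintegral_withDensity_eq_lintegral_mul _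
    (measurable_exponentialPDFReal 1).ennreal_ofReal hm.lintegral_prod_right']
  refine lintegral_congr fun s => ?_
  dsimp only [Pi.mul_apply]
  by_cases h0 : 0 ≤ s
  · by_cases h1 : s ≤ t
    · have hg := fun z => Semi.kernel_nonneg J b (show 0 ≤ t - s by linarith) z y
      rw [indicator_of_mem (show s ∈ Icc 0 t from ⟨h0, h1⟩)]
      simp only [if_pos h1]
      rw [lintegral_const_mul' _ _ (ENNReal.pow_ne_top (cc_ne_top s)),
        lintegral_heat x m (g := fun z => kernel J b (t - s) z y) hg,
        ENNReal.ofReal_mul (by positivity), ENNReal.ofReal_pow (Real.exp_pos _).le, ← mul_assoc]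
      congr 1
      have e : ENNReal.ofReal (exponentialPDFReal 1 s) = cc s := by
        have := exponentialPDF_of_nonneg (r := 1) h0
        rw [one_mul, one_mul] at this
        exact this
      rw [e, ← pow_succ', Nat.sub_add_cancel m.pos]
      rfl
    · rw [indicator_of_notMem fun h => h1 h.2]
      simp [h1]
  · rw [indicator_of_notMem fun h => h0 h.1]
    have e : ENNReal.ofReal (exponentialPDFReal 1 s) = 0 :=
      exponentialPDF_of_neg (r := 1) (not_le.1 h0)
    rw [e, zero_mul]

/-! ### The comparison -/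

theorem kernel_le_one {t : ℝ} (ht : 0 ≤ t) (x y : Cfg n) : kernel J b t x y ≤ 1 := by
  rw [← Semi.kernel_row J b t x]
  exact Finset.single_le_sum (fun z _ => Semi.kernel_nonneg J b ht x z) (Finset.mem_univ y)

theorem uu_bounds (y : Cfg n) (T : ℝ) (k : ℕ) : ∀ t, 0 ≤ t → t ≤ T → ∀ x,
    uu J b k y t x ≤ ENNReal.ofReal (kernel J b t x y) ∧
      ENNReal.ofReal (kernel J b t x y) ≤ uu J b k y t x + (1 - cc T ^ n) ^ k := by
  induction k with
  | zero =>
    intro t h0 _ x
    refine ⟨by simp [uu, EE], ?_⟩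
    rw [pow_zero]
    exact (ENNReal.ofReal_le_one.2 (kernel_le_one h0 x y)).trans le_add_self
  | succ k ih =>
    intro t h0 h1 x
    rw [uu_succ k y h0, kernel_renewal y h0]
    refine ⟨add_le_add_right (Phi_mono (fun s a1 a2 z => (ih s a1 (a2.trans h1) z).1) x) _, ?_⟩
    rw [add_assoc]
    refine add_le_add_right ((Phi_mono (fun s a1 a2 z => (ih s a1 (a2.trans h1) z).2) x).trans ?_) _
    rw [Phi_add (fun z => measurable_uu k y z), pow_succ]
    refine add_le_add_right (mul_le_mul_right ?_ _) _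
    have h2 : cc T ^ n ≤ cc t ^ n := by
      unfold cc
      gcongr
    refine ENNReal.le_sub_of_add_le_left (ENNReal.pow_ne_top (cc_ne_top T)) ?_
    exact (add_le_add_left h2 _).trans (Phi_one h0 x)

theorem tendsto_uu (y : Cfg n) {t : ℝ} (ht : 0 ≤ t) (x : Cfg n) :
    Tendsto (fun k => uu J b k y t x) atTop (𝓝 (ENNReal.ofReal (kernel J b t x y))) := by
  have hρ : 1 - cc t ^ n < 1 := ENNReal.sub_lt_self ENNReal.one_ne_top one_ne_zero
    (pow_ne_zero _ (ENNReal.ofReal_pos.2 (Real.exp_pos _)).ne')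
  have h0 := ENNReal.tendsto_pow_atTop_nhds_zero_of_lt_one hρ
  have h1 := ENNReal.Tendsto.sub
    (tendsto_const_nhds (x := ENNReal.ofReal (kernel J b t x y)) (f := atTop)) h0
    (Or.inl ENNReal.ofReal_ne_top)
  rw [tsub_zero] at h1
  exact tendsto_of_tendsto_of_tendsto_of_le_of_le h1 tendsto_const_nhds
    (fun k => tsub_le_iff_right.2 (uu_bounds y t k t ht le_rfl x).2)
    fun k => (uu_bounds y t k t ht le_rfl x).1

theorem measure_EE (y : Cfg n) {t : ℝ} (ht : 0 ≤ t) (x : Cfg n) :
    clockLaw n (⋃ k, Prod.mk t ⁻¹' EE J b k x y) = ENNReal.ofReal (kernel J b t x y) :=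
  tendsto_nhds_unique (tendsto_measure_iUnion_atTop
    (monotone_nat_of_le_succ fun _ _ h => EE_succ h)) (tendsto_uu y ht x)

theorem measurableSet_U (y : Cfg n) (t : ℝ) (x : Cfg n) :
    MeasurableSet (⋃ k, Prod.mk t ⁻¹' EE J b k x y) :=
  MeasurableSet.iUnion fun k => measurable_prodMk_left (measurableSet_EE k x y)

theorem ae_good (x : Cfg n) : ∀ᵐ ω ∂clockLaw n, Good J b x ω := by
  refine ae_pos.and (ae_all_iff.2 fun N => ?_)
  have hN : (0 : ℝ) ≤ N := N.cast_nonneg
  have h1 : clockLaw n (⋃ y, ⋃ k, Prod.mk (N : ℝ) ⁻¹' EE J b k x y) = 1 := by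
    rw [measure_iUnion₀ _ fun y => (measurableSet_U y N x).nullMeasurableSet, tsum_fintype]
    · simp only [measure_EE _ hN]
      rw [← ENNReal.ofReal_sum_of_nonneg fun y _ => Semi.kernel_nonneg J b hN x y,
        Semi.kernel_row, ENNReal.ofReal_one]
    · intro y y' hy
      refine measure_mono_null ?_ (ae_iff.1 (ae_pos (n := n)))
      rintro ω ⟨h1, h2⟩ hp
      obtain ⟨k, hk⟩ := mem_iUnion.1 h1
      obtain ⟨l, hl⟩ := mem_iUnion.1 h2
      obtain ⟨X, hX⟩ := EE_exists hk hp
      exact hy ((EE_unique hk hp hN hX).symm.trans (EE_unique hl hp hN hX))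
  have h2 := (prob_compl_eq_zero_iff (μ := clockLaw n)
    (MeasurableSet.iUnion fun y => measurableSet_U y N x)).2 h1
  filter_upwards [measure_eq_zero_iff_ae_notMem.1 h2] with ω hω
  simp only [mem_compl_iff, not_not, mem_iUnion, mem_preimage] at hω
  obtain ⟨y, k, h⟩ := hω
  exact ⟨k, y, h⟩

theorem event_ae {t : ℝ} (ht : 0 ≤ t) (x : Cfg n) (A : Set (Cfg n)) :
    event J b t x A =ᵐ[clockLaw n] ⋃ y ∈ A, ⋃ k, Prod.mk t ⁻¹' EE J b k x y := by
  filter_upwards [ae_good (J := J) (b := b) x] with ω hω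
  refine propext ((hω.mem_event ht).trans ?_)
  show _ ↔ ω ∈ ⋃ y ∈ A, ⋃ k, Prod.mk t ⁻¹' EE J b k x y
  simp only [mem_iUnion, mem_preimage]
  exact ⟨fun ⟨k, y, h1, h2⟩ => ⟨y, h1, k, h2⟩, fun ⟨y, h1, k, h2⟩ => ⟨k, y, h1, h2⟩⟩

variable (J b) in
/-- **The dynamics is well defined, and its kernel is `exp (t L)`.** -/
theorem dynamics : Dynamics J b := by
  refine ⟨prob_clock n, fun x => ⟨?_, fun t ht => ⟨fun A => ?_, fun y => ?_⟩⟩⟩
  · filter_upwards [ae_good (J := J) (b := b) x] with ω hω
    obtain ⟨X, hX⟩ := hω.exists_path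
    exact ⟨X, hX, fun Y hY t ht => hω.unique ht (hY.pathTo t) (hX.pathTo t)⟩
  · exact (MeasurableSet.biUnion A.to_countable
      fun y _ => measurableSet_U y t x).nullMeasurableSet.congr (event_ae ht x A).symm
  · rw [trans, measureReal_def, measure_congr (event_ae ht x {y}), biUnion_singleton,
      measure_EE y ht, ENNReal.toReal_ofReal (Semi.kernel_nonneg J b ht x y)]

end Vale.Agent.P150W
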