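import Vale.Agent.P150W51.Defs

/-!
The law of the clocks: lack of memory and the decomposition at the first ring.
-/

namespace Vale.Agent.P150W

open MeasureTheory ProbabilityTheory Set
open scoped ENNReal

/-- The exponential law. -/
noncomputable abbrev E1 : Measure ℝ := expMeasure 1

/-- The uniform law. -/
noncomputable abbrev U1 : Measure ℝ := volume.restrict (Icc 0 1)

/-- The law of one ring. -/
noncomputable abbrev nu : Measure (ℝ × ℝ) := E1.prod U1

/-- The law of one clock. -/
noncomputable abbrev QQ : Measure (ℕ → ℝ × ℝ) := Measure.infinitePi fun _ => nu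

theorem prob_E1 : IsProbabilityMeasure E1 := isProbabilityMeasure_expMeasure one_pos

theorem prob_U1 : IsProbabilityMeasure U1 := ⟨by simp⟩

attribute [local instance] prob_E1 prob_U1

theorem prob_QQ : IsProbabilityMeasure QQ := inferInstance

theorem prob_clock (n : ℕ) : IsProbabilityMeasure (clockLaw n) := by
  unfold clockLaw
  infer_instance

attribute [local instance] prob_clock

/-- `exp (-s)`. -/
noncomputable def cc (s : ℝ) : ℝ≥0∞ := ENNReal.ofReal (Real.exp (-s))

theorem cc_ne_top (s : ℝ) : cc s ≠ ∞ := ENNReal.ofReal_ne_top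

theorem cc_add (s t : ℝ) : cc (s + t) = cc s * cc t := by
  unfold cc
  rw [← ENNReal.ofReal_mul (Real.exp_pos _).le, ← Real.exp_add, neg_add]

theorem measurable_cc : Measurable cc := by
  unfold cc
  fun_prop

theorem E1_Ioi (t : ℝ) : E1 (Ioi t) = cc (max t 0) := by
  rw [← compl_Iic, prob_compl_eq_one_sub measurableSet_Iic, ← ofReal_cdf,
    cdf_expMeasure_eq one_pos, cc]
  split_ifs with h
  · rw [max_eq_left h, one_mul, ← ENNReal.ofReal_one, ← ENNReal.ofReal_sub, sub_sub_cancel]
    rw [sub_nonneg, Real.exp_le_one_iff]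
    linarith
  · rw [max_eq_right (not_le.1 h).le]
    simp

theorem E1_restrict {s : ℝ} (hs : 0 ≤ s) : E1.restrict (Ioi s) = cc s • E1.map (· + s) := by
  have hm : Measurable fun x : ℝ => x + s := by fun_prop
  have h1 : ∀ a, E1.restrict (Ioi s) (Ioi a) = (cc s • E1.map (· + s)) (Ioi a) := by
    intro a
    rw [Measure.restrict_apply measurableSet_Ioi, Ioi_inter_Ioi, E1_Ioi, Measure.smul_apply,
      Measure.map_apply hm measurableSet_Ioi, preimage_add_const_Ioi, E1_Ioi, smul_eq_mul,
      ← cc_add]
    congr 1
    rcases le_total a s with h | h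
    · rw [sup_eq_right.2 h, max_eq_left hs, max_eq_right (by linarith), add_zero]
    · rw [sup_eq_left.2 h, max_eq_left (by linarith), max_eq_left (by linarith)]
      ring
  have h2 : E1.restrict (Ioi s) univ = (cc s • E1.map (· + s)) univ := by
    rw [Measure.restrict_apply_univ, E1_Ioi, max_eq_left hs, Measure.smul_apply,
      Measure.map_apply hm MeasurableSet.univ, preimage_univ, measure_univ, smul_eq_mul, mul_one]
  refine Measure.ext_of_Iic _ _ fun a => ?_
  rw [← compl_Ioi, measure_compl measurableSet_Ioi (measure_ne_top _ _),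
    measure_compl measurableSet_Ioi (by rw [← h1]; exact measure_ne_top _ _), h1, h2]

/-! ### One clock -/

/-- A new first ring. -/
def cons (a : ℝ × ℝ) (w : ℕ → ℝ × ℝ) : ℕ → ℝ × ℝ
  | 0 => a
  | k + 1 => w k

/-- The first ring is forgotten. -/
def tail (w : ℕ → ℝ × ℝ) : ℕ → ℝ × ℝ := fun k => w (k + 1)

/-- The first waiting time is changed by `s`. -/
def add (s : ℝ) (w : ℕ → ℝ × ℝ) : ℕ → ℝ × ℝ := cons ((w 0).1 + s, (w 0).2) (tail w)

theorem measurable_cons : Measurable fun p : (ℝ × ℝ) × (ℕ → ℝ × ℝ) => cons p.1 p.2 := by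
  refine measurable_pi_lambda _ fun k => ?_
  cases k with
  | zero => exact measurable_fst
  | succ k => exact (measurable_pi_apply k).comp measurable_snd

theorem measurable_tail : Measurable tail :=
  measurable_pi_lambda _ fun k => measurable_pi_apply (k + 1)

theorem measurable_add' : Measurable fun p : ℝ × (ℕ → ℝ × ℝ) => add p.1 p.2 := by
  unfold add
  refine measurable_cons.comp (f := fun p : ℝ × (ℕ → ℝ × ℝ) =>
    (((p.2 0).1 + p.1, (p.2 0).2), tail p.2)) ?_
  have := measurable_tail
  fun_prop

theorem measurable_add_s (s : ℝ) : Measurable (add s) :=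
  measurable_add'.comp (measurable_const.prodMk measurable_id)

theorem tail_cons (a : ℝ × ℝ) (w : ℕ → ℝ × ℝ) : tail (cons a w) = w := rfl

theorem add_add_neg (s : ℝ) (w : ℕ → ℝ × ℝ) : add (-s) (add s w) = w := by
  funext k
  cases k with
  | zero =>
    show ((w 0).1 + s + -s, (w 0).2) = w 0
    rw [add_neg_cancel_right]
  | succ k => rfl

theorem map_cons : (nu.prod QQ).map (fun p => cons p.1 p.2) = QQ := by
  refine Measure.eq_infinitePi _ fun s t ht => ?_
  classical
  have e : (fun p : (ℝ × ℝ) × (ℕ → ℝ × ℝ) => cons p.1 p.2) ⁻¹' Set.pi s t =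
      (if 0 ∈ s then t 0 else univ) ×ˢ
        Set.pi (s.preimage Nat.succ Nat.succ_injective.injOn) fun k => t (k + 1) := by
    ext ⟨a, w⟩
    simp only [mem_preimage, Set.mem_pi, Finset.mem_coe, mem_prod, Finset.mem_preimage]
    constructor
    · intro h
      refine ⟨?_, fun k hk => h (k + 1) hk⟩
      split_ifs with h0
      · exact h 0 h0
      · trivial
    · rintro ⟨h1, h2⟩ k hk
      cases k with
      | zero => rwa [if_pos hk] at h1
      | succ k => exact h2 k hk
  rw [Measure.map_apply measurable_cons (MeasurableSet.pi s.countable_toSet fun i _ => ht i), e,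
    Measure.prod_prod, Measure.infinitePi_pi _ fun i _ => ht (i + 1)]
  have h1 : ∏ i ∈ s.preimage Nat.succ Nat.succ_injective.injOn, nu (t (i + 1)) =
      ∏ i ∈ s.erase 0, nu (t i) := by
    refine Finset.prod_bij (fun i _ => i + 1) (fun i hi => ?_) (fun _ _ _ _ h => by omega)
      (fun j hj => ?_) fun _ _ => rfl
    · exact Finset.mem_erase.2 ⟨by omega, (Finset.mem_preimage (f := Nat.succ)).1 hi⟩
    · obtain ⟨h1, h2⟩ := Finset.mem_erase.1 hj
      obtain ⟨k, rfl⟩ := Nat.exists_eq_succ_of_ne_zero h1
      exact ⟨k, Finset.mem_preimage.2 h2, rfl⟩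
  rw [h1]
  split_ifs with h0
  · exact Finset.mul_prod_erase s (fun i => nu (t i)) h0
  · rw [measure_univ, one_mul, Finset.erase_eq_of_notMem h0]

theorem QQ_restrict {s : ℝ} (hs : 0 ≤ s) :
    QQ.restrict {w | s < (w 0).1} = cc s • QQ.map (add s) := by
  have hS : MeasurableSet {w : ℕ → ℝ × ℝ | s < (w 0).1} :=
    measurableSet_lt measurable_const (by fun_prop)
  have hm : Measurable fun x : ℝ => x + s := by fun_prop
  have e : (fun p : (ℝ × ℝ) × (ℕ → ℝ × ℝ) => cons p.1 p.2) ⁻¹' {w | s < (w 0).1} =
      (Ioi s ×ˢ univ) ×ˢ univ := by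
    ext ⟨a, w⟩
    simp [cons]
  have h1 : nu.restrict (Ioi s ×ˢ univ) = cc s • nu.map (Prod.map (· + s) id) := by
    rw [← Measure.restrict_prod_eq_prod_univ, E1_restrict hs, Measure.prod_smul_left,
      ← Measure.map_prod_map _ _ hm measurable_id, Measure.map_id]
  have h2 : (nu.map (Prod.map (· + s) id)).prod QQ =
      (nu.prod QQ).map (Prod.map (Prod.map (· + s) id) id) := by
    rw [← Measure.map_prod_map _ _ (hm.prodMap measurable_id) measurable_id, Measure.map_id]
  conv_lhs => rw [← map_cons]
  conv_rhs => rw [← map_cons]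
  rw [Measure.restrict_map measurable_cons hS, e, ← Measure.restrict_prod_eq_prod_univ, h1,
    Measure.prod_smul_left, h2, Measure.map_smul,
    Measure.map_map measurable_cons ((hm.prodMap measurable_id).prodMap measurable_id),
    Measure.map_map (measurable_add_s s) measurable_cons]
  rfl

/-! ### All clocks -/

variable {n : ℕ}

theorem measurable_upd (m : Fin n) :
    Measurable fun p : (ℕ → ℝ × ℝ) × Clocks n => Function.update p.2 m p.1 := by
  refine measurable_pi_lambda _ fun i => ?_
  by_cases h : i = m
  · subst h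
    simpa using measurable_fst
  · simp only [Function.update_of_ne h]
    fun_prop

theorem map_upd (m : Fin n) :
    (QQ.prod (clockLaw n)).map (fun p => Function.update p.2 m p.1) = clockLaw n := by
  refine (Measure.pi_eq fun t ht => ?_).symm
  have e : (fun p : (ℕ → ℝ × ℝ) × Clocks n => Function.update p.2 m p.1) ⁻¹' Set.pi univ t =
      t m ×ˢ Set.pi univ (Function.update t m univ) := by
    ext ⟨w, ω⟩
    simp only [mem_preimage, Set.mem_pi, mem_univ, true_imp_iff, mem_prod]
    constructor
    · intro h
      refine ⟨by simpa using h m, fun i => ?_⟩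
      by_cases hi : i = m
      · subst hi
        simp
      · simpa [Function.update_of_ne hi] using h i
    · rintro ⟨h1, h2⟩ i
      by_cases hi : i = m
      · subst hi
        simpa using h1
      · simpa [Function.update_of_ne hi] using h2 i
  rw [Measure.map_apply (measurable_upd m) (MeasurableSet.univ_pi ht), e, Measure.prod_prod,
    clockLaw, Measure.pi_pi, ← Finset.mul_prod_erase _ _ (Finset.mem_univ m),
    ← Finset.mul_prod_erase _ (fun i => QQ (t i)) (Finset.mem_univ m), Function.update_self,
    measure_univ, one_mul]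
  congr 1
  exact Finset.prod_congr rfl fun i hi => by rw [Function.update_of_ne (Finset.mem_erase.1 hi).1]

/-- The first waiting times of the clocks other than `m` are changed by `s`. -/
def shift (m : Fin n) (s : ℝ) (ω : Clocks n) : Clocks n :=
  fun i => if i = m then ω i else add s (ω i)

theorem measurable_shift (m : Fin n) :
    Measurable fun p : ℝ × Clocks n => shift m p.1 p.2 := by
  refine measurable_pi_lambda _ fun i => ?_
  unfold shift
  split_ifs
  · fun_prop
  · exact measurable_add'.comp (f := fun p : ℝ × Clocks n => (p.1, p.2 i)) (by fun_prop)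

theorem clock_restrict (m : Fin n) {s : ℝ} (hs : 0 ≤ s) :
    (clockLaw n).restrict {ω | ∀ i, i ≠ m → s < (ω i 0).1} =
      cc s ^ (n - 1) • (clockLaw n).map (shift m s) := by
  have hm : Measurable (shift m s) :=
    (measurable_shift m).comp (measurable_const.prodMk measurable_id)
  have e : {ω : Clocks n | ∀ i, i ≠ m → s < (ω i 0).1} =
      Set.pi univ fun i => if i = m then univ else {w | s < (w 0).1} := by
    ext ω
    simp only [mem_ofPred_eq, Set.mem_pi, mem_univ, true_imp_iff]
    refine forall_congr' fun i => ?_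
    split_ifs with h <;> simp [h]
  rw [e, clockLaw, Measure.restrict_pi_pi]
  refine Measure.pi_eq fun t ht => ?_
  have e2 : shift m s ⁻¹' Set.pi univ t =
      Set.pi univ fun i => if i = m then t i else add s ⁻¹' t i := by
    ext ω
    simp only [mem_preimage, Set.mem_pi, mem_univ, true_imp_iff, shift]
    refine forall_congr' fun i => ?_
    split_ifs with h <;> simp
  rw [Measure.smul_apply, Measure.map_apply hm (MeasurableSet.univ_pi ht), e2, Measure.pi_pi,
    smul_eq_mul, ← Finset.mul_prod_erase _ _ (Finset.mem_univ m),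
    ← Finset.mul_prod_erase _ _ (Finset.mem_univ m), if_pos rfl, if_pos rfl,
    Measure.restrict_univ, mul_left_comm]
  congr 1
  have hc : cc s ^ (n - 1) = ∏ _i ∈ Finset.univ.erase m, cc s := by
    rw [Finset.prod_const, Finset.card_erase_of_mem (Finset.mem_univ m), Finset.card_univ,
      Fintype.card_fin]
  rw [hc, ← Finset.prod_mul_distrib]
  refine Finset.prod_congr rfl fun i hi => ?_
  have hi' := (Finset.mem_erase.1 hi).1
  rw [if_neg hi', if_neg hi', QQ_restrict hs, Measure.smul_apply,
    Measure.map_apply (measurable_add_s s) (ht i), smul_eq_mul]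

/-- The clock `m` rings first. -/
def first (m : Fin n) : Set (Clocks n) := {ω | ∀ i, i ≠ m → (ω m 0).1 < (ω i 0).1}

theorem measurableSet_first (m : Fin n) : MeasurableSet (first m) := by
  unfold first
  simp only [ofPred_forall]
  exact MeasurableSet.iInter fun i => MeasurableSet.iInter fun _ =>
    measurableSet_lt (by fun_prop) (by fun_prop)

/-- The clocks with a new first ring `a` at the site `m`. -/
def push (m : Fin n) (a : ℝ × ℝ) (ω : Clocks n) : Clocks n :=
  Function.update (shift m a.1 ω) m (cons a (ω m))

/-- The clocks after the first ring, at the site `m`. -/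
def pop (m : Fin n) (ω : Clocks n) : Clocks n :=
  Function.update (shift m (-(ω m 0).1) ω) m (tail (ω m))

theorem push_self (m : Fin n) (a : ℝ × ℝ) (ω : Clocks n) : push m a ω m 0 = a := by
  simp [push, cons]

theorem pop_push (m : Fin n) (a : ℝ × ℝ) (ω : Clocks n) : pop m (push m a ω) = ω := by
  funext i
  by_cases h : i = m
  · subst h
    simp [pop, push, tail_cons]
  · rw [pop, Function.update_of_ne h, push_self, shift, if_neg h, push, Function.update_of_ne h,
      shift, if_neg h, add_add_neg]

theorem measurable_pop (m : Fin n) : Measurable (pop m : Clocks n → Clocks n) := by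
  refine (measurable_upd m).comp (f := fun ω : Clocks n =>
    (tail (ω m), shift m (-(ω m 0).1) ω)) (Measurable.prodMk ?_ ?_)
  · exact measurable_tail.comp (measurable_pi_apply m)
  · exact (measurable_shift m).comp (f := fun ω : Clocks n => (-(ω m 0).1, ω)) (by fun_prop)

theorem measurable_push (m : Fin n) (a : ℝ × ℝ) :
    Measurable (push m a : Clocks n → Clocks n) := by
  refine (measurable_upd m).comp (f := fun ω : Clocks n =>
    (cons a (ω m), shift m a.1 ω)) (Measurable.prodMk ?_ ?_)
  · exact measurable_cons.comp (f := fun ω : Clocks n => (a, ω m)) (by fun_prop)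
  · exact (measurable_shift m).comp (f := fun ω : Clocks n => (a.1, ω)) (by fun_prop)

theorem nu_pos : ∀ᵐ a ∂nu, 0 < a.1 := by
  have h : nu (Ioi 0 ×ˢ univ) = 1 := by
    rw [Measure.prod_prod, E1_Ioi, measure_univ]
    simp [cc]
  have h2 := (prob_compl_eq_zero_iff (μ := nu) (measurableSet_Ioi.prod MeasurableSet.univ)).2 h
  filter_upwards [measure_eq_zero_iff_ae_notMem.1 h2] with a ha
  simpa using ha

/-- **The decomposition at the first ring.** -/
theorem first_ring (m : Fin n) {B : Set (Clocks n)} (hB : MeasurableSet B) :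
    clockLaw n (first m ∩ B) = ∫⁻ a, cc a.1 ^ (n - 1) * clockLaw n (push m a ⁻¹' B) ∂nu := by
  have hS := (measurableSet_first m).inter hB
  have hu := measurable_upd (n := n) m
  conv_lhs => rw [← map_upd m]
  rw [Measure.map_apply hu hS, Measure.prod_apply (hu hS)]
  conv_lhs => rw [← map_cons]
  have hI := (measurable_measure_prodMk_left (ν := clockLaw n) (hu hS)).comp measurable_cons
  rw [lintegral_map (measurable_measure_prodMk_left (hu hS)) measurable_cons]
  refine (lintegral_prod _ hI.aemeasurable).trans ?_
  refine lintegral_congr_ae ?_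
  filter_upwards [nu_pos] with a ha
  have hp := measurable_push (n := n) m a
  have hsh : Measurable (shift m a.1 : Clocks n → Clocks n) :=
    (measurable_shift m).comp (measurable_const.prodMk measurable_id)
  conv_rhs => rw [← map_upd m]
  rw [Measure.map_apply hu (hp hB), Measure.prod_apply (hu (hp hB)),
    ← lintegral_const_mul _ (measurable_measure_prodMk_left (hu (hp hB)))]
  refine lintegral_congr fun w => ?_
  dsimp only [Function.comp]
  have hw : Measurable fun ω : Clocks n => Function.update ω m (cons a w) :=
    hu.comp (measurable_const.prodMk measurable_id)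
  have e : Prod.mk (cons a w) ⁻¹' ((fun p : (ℕ → ℝ × ℝ) × Clocks n =>
      Function.update p.2 m p.1) ⁻¹' (first m ∩ B)) =
      (fun ω => Function.update ω m (cons a w)) ⁻¹' B ∩ {ω | ∀ i, i ≠ m → a.1 < (ω i 0).1} := by
    ext ω
    simp only [mem_preimage, mem_inter_iff, first, mem_ofPred_eq, Function.update_self]
    rw [and_comm]
    refine and_congr_right fun _ => forall_congr' fun i => forall_congr' fun hi => ?_
    rw [Function.update_of_ne hi]
    rfl
  rw [e, ← Measure.restrict_apply (hw hB), clock_restrict m ha.le, Measure.smul_apply,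
    Measure.map_apply hsh (hw hB), smul_eq_mul]
  congr 2
  ext ω
  simp only [mem_preimage]
  have e2 : Function.update (shift m a.1 ω) m (cons a w) = push m a (Function.update ω m w) := by
    funext i
    by_cases h : i = m
    · subst h
      simp [push]
    · simp [push, shift, h]
  rw [e2]

theorem ae_pos : ∀ᵐ ω ∂clockLaw n, ∀ i k, 0 < (ω i k).1 := by
  refine ae_all_iff.2 fun i => ae_all_iff.2 fun k => ?_
  have h1 : MeasurePreserving (fun ω : Clocks n => ω i) (clockLaw n) QQ :=
    measurePreserving_eval (fun _ => QQ) i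
  have h2 : MeasurePreserving (fun w : ℕ → ℝ × ℝ => w k) QQ nu :=
    measurePreserving_eval_infinitePi (fun _ => nu) k
  exact (h2.comp h1).quasiMeasurePreserving.ae nu_pos

theorem clock_none {t : ℝ} (ht : 0 ≤ t) :
    clockLaw n {ω | ∀ i, t < (ω i 0).1} = cc t ^ n := by
  have e : {ω : Clocks n | ∀ i, t < (ω i 0).1} = Set.pi univ fun _ => {w | t < (w 0).1} := by
    ext ω
    simp
  have h : QQ {w | t < (w 0).1} = cc t := by
    rw [← Measure.restrict_apply_univ, QQ_restrict ht, Measure.smul_apply,
      Measure.map_apply (measurable_add_s t) MeasurableSet.univ, preimage_univ, measure_univ,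
      smul_eq_mul, mul_one]
  rw [e, clockLaw, Measure.pi_pi]
  simp only [h, Finset.prod_const, Finset.card_univ, Fintype.card_fin]

end Vale.Agent.P150W
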