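import Vale.Agent.P150W51.Meas

/-!
The paths of the dynamics: existence and uniqueness, by induction on the number of rings.
-/

namespace Vale.Agent.P150W

open MeasureTheory Set Vale.Agent.P150

variable {n : ℕ} {J : Fin n → Fin n → ℝ} {b : Fin n → ℝ} {ω : Clocks n} {m : Fin n}
  {x y : Cfg n} {X : ℝ → Cfg n} {T : ℝ}

/-- All waiting times are positive. -/
def Pos (ω : Clocks n) : Prop := ∀ i k, 0 < (ω i k).1

theorem ring_zero (ω : Clocks n) (i : Fin n) : ring ω i 0 = (ω i 0).1 := by simp [ring]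

theorem ring_eq (ω : Clocks n) (i : Fin n) (k : ℕ) :
    ring ω i k = ∑ j ∈ Finset.range k, (ω i (j + 1)).1 + (ω i 0).1 :=
  Finset.sum_range_succ' _ k

theorem Pos.le_ring (h : Pos ω) (i : Fin n) (k : ℕ) : (ω i 0).1 ≤ ring ω i k := by
  rw [ring_eq]
  exact le_add_of_nonneg_left (Finset.sum_nonneg fun j _ => (h i _).le)

/-- The number of a ring before the first ring is forgotten. -/
def up (m i : Fin n) (k : ℕ) : ℕ := if i = m then k + 1 else k

theorem ring_pop (ω : Clocks n) (m i : Fin n) (k : ℕ) :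
    ring (pop m ω) i k = ring ω i (up m i k) - (ω m 0).1 := by
  by_cases h : i = m
  · subst h
    rw [up, if_pos rfl, ring_eq ω, add_sub_cancel_right, ring, pop, Function.update_self]
    rfl
  · rw [up, if_neg h, ring_eq, ring_eq, pop, Function.update_of_ne h, shift, if_neg h,
      add_sub_assoc]
    rfl

theorem mark_pop (ω : Clocks n) (m i : Fin n) (k : ℕ) :
    (pop m ω i k).2 = (ω i (up m i k)).2 := by
  by_cases h : i = m
  · subst h
    rw [up, if_pos rfl, pop, Function.update_self]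
    rfl
  · rw [up, if_neg h, pop, Function.update_of_ne h, shift, if_neg h]
    cases k <;> rfl

theorem cases_up (m i : Fin n) (k : ℕ) : (i = m ∧ k = 0) ∨ ∃ l, k = up m i l := by
  by_cases h : i = m
  · cases k with
    | zero => exact Or.inl ⟨h, rfl⟩
    | succ k => exact Or.inr ⟨k, by rw [up, if_pos h]⟩
  · exact Or.inr ⟨k, by rw [up, if_neg h]⟩

theorem Pos.pop (h : Pos ω) (hm : ω ∈ first m) : Pos (pop m ω) := by
  intro i k
  by_cases hi : i = m
  · subst hi
    rw [P150W.pop, Function.update_self]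
    exact h i (k + 1)
  · rw [P150W.pop, Function.update_of_ne hi, shift, if_neg hi]
    cases k with
    | zero =>
      have := hm i hi
      show 0 < (ω i 0).1 + -(ω m 0).1
      linarith
    | succ k => exact h i (k + 1)

theorem Pos.lt_ring (h : Pos ω) (hm : ω ∈ first m) (i : Fin n) (k : ℕ) :
    (ω m 0).1 < ring ω i (up m i k) := by
  have h1 := (h.pop hm).le_ring i k
  have h2 := h.pop hm i 0
  rw [ring_pop] at h1
  linarith

theorem Pos.first_le (h : Pos ω) (hm : ω ∈ first m) (i : Fin n) (k : ℕ) :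
    (ω m 0).1 ≤ ring ω i k := by
  rcases cases_up m i k with ⟨rfl, rfl⟩ | ⟨l, rfl⟩
  · rw [ring_zero]
  · exact (h.lt_ring hm i l).le

variable (J b) in
/-- A path up to the time `T`. -/
def PathTo (T : ℝ) (x : Cfg n) (ω : Clocks n) (X : ℝ → Cfg n) : Prop :=
  X 0 = x ∧ (∀ s t, 0 ≤ s → s ≤ t → t ≤ T → (∀ i k, ring ω i k ∉ Ioc s t) → X t = X s) ∧
    ∀ i k s, 0 ≤ s → s < ring ω i k → ring ω i k ≤ T →
      (∀ j l, ring ω j l ∉ Ioo s (ring ω i k)) → X (ring ω i k) = heat J b (X s) i (ω i k).2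

theorem IsPath.pathTo (h : IsPath J b x ω X) (T : ℝ) : PathTo J b T x ω X :=
  ⟨h.1, fun s t h1 h2 _ => h.2.1 s t h1 h2, fun i k s h1 h2 _ => h.2.2 i k s h1 h2⟩

theorem PathTo.mono (h : PathTo J b T x ω X) {r : ℝ} (hr : r ≤ T) : PathTo J b r x ω X :=
  ⟨h.1, fun s t h1 h2 h3 => h.2.1 s t h1 h2 (h3.trans hr),
    fun i k s h1 h2 h3 => h.2.2 i k s h1 h2 (h3.trans hr)⟩

theorem PathTo.shift (h : PathTo J b T x ω X) (hp : Pos ω) (hm : ω ∈ first m)
    (hT : (ω m 0).1 ≤ T) : PathTo J b (T - (ω m 0).1) (heat J b x m (ω m 0).2) (pop m ω)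
      fun r => X (r + (ω m 0).1) := by
  refine ⟨?_, fun s t h1 h2 h3 h4 => ?_, fun i k s h1 h2 h3 h4 => ?_⟩
  · have := h.2.2 m 0 0 le_rfl (by rw [ring_zero]; exact hp m 0) (by rwa [ring_zero])
      fun j l hj => by
        have := hp.first_le hm j l
        rw [ring_zero] at hj
        linarith [hj.2]
    rw [ring_zero, h.1] at this
    simpa using this
  · refine h.2.1 _ _ (by linarith [hp m 0]) (by linarith) (by linarith) fun i k hi => ?_
    rcases cases_up m i k with ⟨rfl, rfl⟩ | ⟨l, rfl⟩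
    · rw [ring_zero] at hi
      linarith [hi.1]
    · refine h4 i l ?_
      rw [ring_pop]
      exact ⟨by linarith [hi.1], by linarith [hi.2]⟩
  · rw [ring_pop] at h2 h3
    have := h.2.2 i (up m i k) (s + (ω m 0).1) (by linarith [hp m 0]) (by linarith) (by linarith)
      fun j l hj => by
        rcases cases_up m j l with ⟨rfl, rfl⟩ | ⟨l, rfl⟩
        · rw [ring_zero] at hj
          linarith [hj.1]
        · refine h4 j l ?_
          rw [ring_pop, ring_pop]
          exact ⟨by linarith [hj.1], by linarith [hj.2]⟩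
    dsimp only
    rw [ring_pop, mark_pop, sub_add_cancel, this]

theorem PathTo.unshift (hp : Pos ω) (hm : ω ∈ first m)
    (h : PathTo J b (T - (ω m 0).1) (heat J b x m (ω m 0).2) (pop m ω) X) :
    PathTo J b T x ω fun r => if r < (ω m 0).1 then x else X (r - (ω m 0).1) := by
  refine ⟨if_pos (hp m 0), fun s t h1 h2 h3 h4 => ?_, fun i k s h1 h2 h3 h4 => ?_⟩
  · dsimp only
    by_cases ht : t < (ω m 0).1
    · rw [if_pos ht, if_pos (h2.trans_lt ht)]
    · have hs : ¬ s < (ω m 0).1 := fun hs => h4 m 0 (by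
        rw [ring_zero]
        exact ⟨hs, not_lt.1 ht⟩)
      rw [if_neg ht, if_neg hs]
      refine h.2.1 _ _ (by linarith [not_lt.1 hs]) (by linarith) (by linarith) fun i k hi => ?_
      rw [ring_pop] at hi
      exact h4 i _ ⟨by linarith [hi.1], by linarith [hi.2]⟩
  · dsimp only
    rcases cases_up m i k with ⟨rfl, rfl⟩ | ⟨l, rfl⟩
    · rw [ring_zero] at h2 ⊢
      rw [if_neg (lt_irrefl _), if_pos h2, sub_self, h.1]
    · have h5 := hp.lt_ring hm i l
      have hs : ¬ s < (ω m 0).1 := fun hs => h4 m 0 (by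
        rw [ring_zero]
        exact ⟨hs, h5⟩)
      rw [if_neg (not_lt.2 h5.le), if_neg hs, ← ring_pop, ← mark_pop]
      refine h.2.2 i l _ (by linarith [not_lt.1 hs]) (by rw [ring_pop]; linarith)
        (by rw [ring_pop]; linarith) fun j l' hj => ?_
      rw [ring_pop, ring_pop] at hj
      exact h4 j _ ⟨by linarith [hj.1], by linarith [hj.2]⟩

variable (J b) in
/-- The pairs `(t, ω)` such that there are less than `k` rings up to the time `t`, at different
times, and the dynamics from `x` is at `y` at the time `t`. -/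
def EE : ℕ → Cfg n → Cfg n → Set (ℝ × Clocks n)
  | 0, _, _ => ∅
  | k + 1, x, y => {p | (∀ i, p.1 < (p.2 i 0).1) ∧ x = y} ∪ ⋃ m, {p | p.2 ∈ first m ∧
      (p.2 m 0).1 ≤ p.1 ∧ (p.1 - (p.2 m 0).1, pop m p.2) ∈ EE k (heat J b x m (p.2 m 0).2) y}

theorem mem_EE {k : ℕ} {t : ℝ} : (t, ω) ∈ EE J b (k + 1) x y ↔
    ((∀ i, t < (ω i 0).1) ∧ x = y) ∨ ∃ m, ω ∈ first m ∧ (ω m 0).1 ≤ t ∧
      (t - (ω m 0).1, pop m ω) ∈ EE J b k (heat J b x m (ω m 0).2) y := by
  simp only [EE, mem_union, mem_iUnion, mem_ofPred_eq]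

theorem EE_exists {k : ℕ} {t : ℝ} (h : (t, ω) ∈ EE J b k x y) (hp : Pos ω) :
    ∃ X, PathTo J b t x ω X := by
  induction k generalizing t ω x with
  | zero => exact h.elim
  | succ k ih =>
    rcases mem_EE.1 h with ⟨h1, -⟩ | ⟨m, h1, -, h3⟩
    · exact ⟨fun _ => x, rfl, fun _ _ _ _ _ _ => rfl, fun i l s _ _ h4 _ => by
        linarith [h1 i, hp.le_ring i l]⟩
    · obtain ⟨X, hX⟩ := ih h3 (hp.pop h1)
      exact ⟨_, hX.unshift hp h1⟩

theorem EE_unique {k : ℕ} {t : ℝ} (h : (t, ω) ∈ EE J b k x y) (hp : Pos ω) (ht : 0 ≤ t)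
    (hX : PathTo J b t x ω X) : X t = y := by
  induction k generalizing t ω x X with
  | zero => exact h.elim
  | succ k ih =>
    rcases mem_EE.1 h with ⟨h1, h2⟩ | ⟨m, h1, h2, h3⟩
    · rw [hX.2.1 0 t le_rfl ht le_rfl fun i l hi => by
        linarith [h1 i, hp.le_ring i l, hi.2], hX.1, h2]
    · have := ih h3 (hp.pop h1) (by linarith) (hX.shift hp h1 h2)
      simpa using this

theorem EE_earlier {k : ℕ} {t r : ℝ} (h : (t, ω) ∈ EE J b k x y) (hr : r ≤ t) :
    ∃ z, (r, ω) ∈ EE J b k x z := by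
  induction k generalizing t r ω x with
  | zero => exact h.elim
  | succ k ih =>
    rcases mem_EE.1 h with ⟨h1, -⟩ | ⟨m, h1, -, h3⟩
    · exact ⟨x, mem_EE.2 (Or.inl ⟨fun i => hr.trans_lt (h1 i), rfl⟩)⟩
    · by_cases hc : r < (ω m 0).1
      · refine ⟨x, mem_EE.2 (Or.inl ⟨fun i => ?_, rfl⟩)⟩
        by_cases hi : i = m
        · rwa [hi]
        · exact hc.trans (h1 i hi)
      · obtain ⟨z, hz⟩ := ih (r := r - (ω m 0).1) h3 (by linarith)
        exact ⟨z, mem_EE.2 (Or.inr ⟨m, h1, not_lt.1 hc, hz⟩)⟩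

theorem EE_succ {k : ℕ} {t : ℝ} (h : (t, ω) ∈ EE J b k x y) : (t, ω) ∈ EE J b (k + 1) x y := by
  induction k generalizing t ω x with
  | zero => exact h.elim
  | succ k ih =>
    rcases mem_EE.1 h with h1 | ⟨m, h1, h2, h3⟩
    · exact mem_EE.2 (Or.inl h1)
    · exact mem_EE.2 (Or.inr ⟨m, h1, h2, ih h3⟩)

variable (J b) in
/-- The good clocks. -/
def Good (x : Cfg n) (ω : Clocks n) : Prop :=
  Pos ω ∧ ∀ N : ℕ, ∃ k y, ((N : ℝ), ω) ∈ EE J b k x y

theorem Good.mem (h : Good J b x ω) (t : ℝ) : ∃ k y, (t, ω) ∈ EE J b k x y := by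
  obtain ⟨k, y, hk⟩ := h.2 ⌈t⌉₊
  exact ⟨k, EE_earlier hk (Nat.le_ceil t)⟩

theorem Good.unique (h : Good J b x ω) {t : ℝ} (ht : 0 ≤ t) {Y : ℝ → Cfg n}
    (hX : PathTo J b t x ω X) (hY : PathTo J b t x ω Y) : X t = Y t := by
  obtain ⟨k, y, hk⟩ := h.mem t
  rw [EE_unique hk h.1 ht hX, EE_unique hk h.1 ht hY]

theorem Good.exists_path (h : Good J b x ω) : ∃ X, IsPath J b x ω X := by
  have H : ∀ t : ℝ, ∃ X, PathTo J b t x ω X := fun t => by
    obtain ⟨k, y, hk⟩ := h.mem t
    exact EE_exists hk h.1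
  choose X hX using H
  have key : ∀ s t, 0 ≤ s → s ≤ t → X s s = X t s := fun s t h1 h2 =>
    h.unique h1 (hX s) ((hX t).mono h2)
  refine ⟨fun t => X t t, (hX 0).1, fun s t h1 h2 h3 => ?_, fun i k s h1 h2 h3 => ?_⟩
  · dsimp only
    rw [key s t h1 h2]
    exact (hX t).2.1 s t h1 h2 le_rfl h3
  · dsimp only
    rw [key s _ h1 h2.le]
    exact (hX _).2.2 i k s h1 h2 le_rfl h3

theorem Good.mem_event (h : Good J b x ω) {t : ℝ} (ht : 0 ≤ t) {A : Set (Cfg n)} :
    ω ∈ event J b t x A ↔ ∃ k, ∃ y ∈ A, (t, ω) ∈ EE J b k x y := by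
  constructor
  · rintro ⟨X, hX, hA⟩
    obtain ⟨k, y, hk⟩ := h.mem t
    exact ⟨k, y, EE_unique hk h.1 ht (hX.pathTo t) ▸ hA, hk⟩
  · rintro ⟨k, y, hy, hk⟩
    obtain ⟨X, hX⟩ := h.exists_path
    exact ⟨X, hX, (EE_unique hk h.1 ht (hX.pathTo t)).symm ▸ hy⟩

theorem measurable_heat (x : Cfg n) (m : Fin n) : Measurable (heat J b x m) := by
  unfold heat
  refine (measurable_of_finite (Function.update x m)).comp ?_
  refine measurable_to_bool ?_
  have e : ∀ c : ℝ, (fun u : ℝ => decide (u < c)) ⁻¹' {true} = Iio c := fun c => by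
    ext u
    simp
  rw [e]
  exact measurableSet_Iio

theorem measurableSet_EE (k : ℕ) (x y : Cfg n) : MeasurableSet (EE J b k x y) := by
  induction k generalizing x with
  | zero => exact MeasurableSet.empty
  | succ k ih =>
    refine MeasurableSet.union ?_ (MeasurableSet.iUnion fun m => ?_)
    · refine MeasurableSet.inter ?_ (MeasurableSet.const _)
      show MeasurableSet {p : ℝ × Clocks n | ∀ i, p.1 < (p.2 i 0).1}
      simp only [ofPred_forall]
      exact MeasurableSet.iInter fun i => measurableSet_lt (by fun_prop) (by fun_prop)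
    · refine (measurable_snd (measurableSet_first m)).inter
        (MeasurableSet.inter (measurableSet_le (f := fun p : ℝ × Clocks n => (p.2 m 0).1)
          (g := fun p => p.1) (by fun_prop) (by fun_prop)) ?_)
      have e : {p : ℝ × Clocks n | (p.1 - (p.2 m 0).1, pop m p.2) ∈
          EE J b k (heat J b x m (p.2 m 0).2) y} = ⋃ z,
          (fun p : ℝ × Clocks n => heat J b x m (p.2 m 0).2) ⁻¹' {z} ∩
            (fun p : ℝ × Clocks n => (p.1 - (p.2 m 0).1, pop m p.2)) ⁻¹' EE J b k z y := by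
        ext p
        simp
      show MeasurableSet {p : ℝ × Clocks n | (p.1 - (p.2 m 0).1, pop m p.2) ∈
          EE J b k (heat J b x m (p.2 m 0).2) y}
      rw [e]
      refine MeasurableSet.iUnion fun z => MeasurableSet.inter ?_ ?_
      · exact ((measurable_heat x m).comp (by fun_prop)) (measurableSet_singleton z)
      · refine Measurable.prodMk (by fun_prop) ((measurable_pop m).comp measurable_snd) (ih z)

end Vale.Agent.P150W
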